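import Vale.Agent.P275HK.Alg

/-!
P275 (helper28): calculus of Chern connections in holomorphic frames.
-/

set_option linter.all false

open scoped Matrix.Norms.Operator Topology ComplexOrder ComplexConjugate
open Filter Set Matrix Complex
open Vale.Agent.P281Z.Hm
open Vale.Agent.P275NA
open Vale.Agent.P284Z (levi)

noncomputable section

namespace Vale.Agent.P275HK

section cd
variable {E : Type} [NormedAddCommGroup E] [NormedSpace ℝ E] {z : E} {N : WithTop ℕ∞}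
  {l m n : Type} [Fintype l] [Fintype m] [Fintype n]

theorem cd_mul {f : E → Matrix l m ℂ} {g : E → Matrix m n ℂ} (hf : ContDiffAt ℝ N f z)
    (hg : ContDiffAt ℝ N g z) : ContDiffAt ℝ N (fun x => f x * g x) z :=
  ContDiffAt.comp (g := fun p : Matrix l m ℂ × Matrix m n ℂ => p.1 * p.2) (f := fun x => (f x, g x)) z
    (an_mul (𝕜 := ℝ) analyticAt_fst analyticAt_snd).contDiffAt (hf.prodMk hg)

theorem cd_ct {f : E → Matrix m n ℂ} (hf : ContDiffAt ℝ N f z) :
    ContDiffAt ℝ N (fun x => (f x)ᴴ) z :=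
  (an_ct (E := Matrix m n ℂ) (z := f z) analyticAt_id).contDiffAt.comp z hf

theorem cd_trace {f : E → Matrix n n ℂ} (hf : ContDiffAt ℝ N f z) :
    ContDiffAt ℝ N (fun x => trace (f x)) z :=
  (an_trace (𝕜 := ℝ) (E := Matrix n n ℂ) (z := f z) analyticAt_id).contDiffAt.comp z hf

theorem cd_ent {f : E → Matrix m n ℂ} (hf : ContDiffAt ℝ N f z) (i : m) (j : n) :
    ContDiffAt ℝ N (fun x => f x i j) z :=
  (an_ent (𝕜 := ℝ) (E := Matrix m n ℂ) (z := f z) analyticAt_id i j).contDiffAt.comp z hf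

theorem cd_re {a : E → ℂ} (ha : ContDiffAt ℝ N a z) : ContDiffAt ℝ N (fun x => (a x).re) z :=
  reCLM.contDiff.contDiffAt.comp z ha

theorem cd_ofReal {a : E → ℝ} (ha : ContDiffAt ℝ N a z) : ContDiffAt ℝ N (fun x => (a x : ℂ)) z :=
  ofRealCLM.contDiff.contDiffAt.comp z ha

variable [DecidableEq n]

theorem cd_det {f : E → Matrix n n ℂ} (hf : ContDiffAt ℝ N f z) :
    ContDiffAt ℝ N (fun x => (f x).det) z :=
  (an_det (𝕜 := ℝ) (E := Matrix n n ℂ) (z := f z) analyticAt_id).contDiffAt.comp z hf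

theorem cd_inv {f : E → Matrix n n ℂ} (hf : ContDiffAt ℝ N f z) (h0 : (f z).det ≠ 0) :
    ContDiffAt ℝ N (fun x => (f x)⁻¹) z :=
  (an_inv (𝕜 := ℝ) (E := Matrix n n ℂ) (z := f z) analyticAt_id h0).contDiffAt.comp z hf

theorem cd_ad [DecidableEq m] {k : E → Mx m} {h : E → Mx n} {g : E → Matrix n m ℂ}
    (hk : ContDiffAt ℝ N k z) (h0 : (k z).det ≠ 0) (hh : ContDiffAt ℝ N h z)
    (hg : ContDiffAt ℝ N g z) : ContDiffAt ℝ N (fun x => ad (k x) (h x) (g x)) z :=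
  cd_mul (cd_mul (cd_inv hk h0) (cd_ct hg)) hh

end cd

section gen
variable {F : Type} [NormedAddCommGroup F] [NormedSpace ℝ F] [NormedSpace ℂ F]
  [IsScalarTower ℝ ℂ F] {f : ℂ → F} {z : ℂ} {N : WithTop ℕ∞}

theorem cd_dz (hf : ContDiffAt ℝ (N + 1) f z) : ContDiffAt ℝ N (dz f) z := by
  have := hf.fderiv_right (m := N) le_rfl
  exact ((this.clm_apply contDiffAt_const).sub
    ((this.clm_apply contDiffAt_const).const_smul I)).const_smul _

theorem cd_db (hf : ContDiffAt ℝ (N + 1) f z) : ContDiffAt ℝ N (db f) z := by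
  have := hf.fderiv_right (m := N) le_rfl
  exact ((this.clm_apply contDiffAt_const).add
    ((this.clm_apply contDiffAt_const).const_smul I)).const_smul _

theorem c2_df (hf : ContDiffAt ℝ 2 f z) : DifferentiableAt ℝ f z := hf.differentiableAt two_ne_zero

theorem c2_ev (hf : ContDiffAt ℝ 2 f z) : ∀ᶠ x in 𝓝 z, ContDiffAt ℝ 2 f x :=
  hf.eventually (by simp)

theorem df_dz (hf : ContDiffAt ℝ 2 f z) : DifferentiableAt ℝ (dz f) z :=
  (cd_dz (N := 1) (by rwa [one_add_one_eq_two])).differentiableAt one_ne_zero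

theorem df_db (hf : ContDiffAt ℝ 2 f z) : DifferentiableAt ℝ (db f) z :=
  (cd_db (N := 1) (by rwa [one_add_one_eq_two])).differentiableAt one_ne_zero

theorem dz_hol (hf : DifferentiableAt ℂ f z) : dz f z = deriv f z := wd_hol hf 1

variable [CompleteSpace F]

theorem hol_cd (hf : AnalyticAt ℂ f z) : ContDiffAt ℝ N f z :=
  (hf.restrictScalars (𝕜 := ℝ)).contDiffAt

theorem hol_df (hf : AnalyticAt ℂ f z) : DifferentiableAt ℝ f z :=
  (hf.restrictScalars (𝕜 := ℝ)).differentiableAt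

theorem db_hol (hf : AnalyticAt ℂ f z) : db f z = 0 := wb_hol hf.differentiableAt 1

theorem hol_dz (hf : AnalyticAt ℂ f z) : AnalyticAt ℂ (dz f) z :=
  hf.deriv.congr (hf.eventually_analyticAt.mono fun x hx => (dz_hol hx.differentiableAt).symm)

end gen

section comp
variable {F : Type} [NormedAddCommGroup F] [NormedSpace ℝ F] [NormedSpace ℂ F]
  [IsScalarTower ℝ ℂ F] {f : ℂ → F} {φ : ℂ → ℂ} {z : ℂ}

theorem dz_comp (hf : DifferentiableAt ℝ f (φ z)) (hφ : DifferentiableAt ℂ φ z) :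
    dz (fun x => f (φ x)) z = deriv φ z • dz f (φ z) := by
  rw [dz, wd_comp hf hφ, ← wd_smulv, smul_eq_mul, mul_one]
  rfl

theorem db_comp (hf : DifferentiableAt ℝ f (φ z)) (hφ : DifferentiableAt ℂ φ z) :
    db (fun x => f (φ x)) z = conj (deriv φ z) • db f (φ z) := by
  rw [db, wb_comp hf hφ, ← wb_smulv, smul_eq_mul, mul_one]
  rfl

end comp

section lp
variable {u v : ℂ → ℝ} {z : ℂ}

theorem lp_eq (hu : ContDiffAt ℝ 2 u z) : lp u z = levi u z 1 / 4 := by
  rw [P275NA.lp, dz, db, wb_wd_ofReal hu, ofReal_re]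

theorem lp_cx (hu : ContDiffAt ℝ 2 u z) : db (dz fun x => (u x : ℂ)) z = (lp u z : ℂ) := by
  rw [lp_eq hu, dz, db, wb_wd_ofReal hu]

theorem lp_congr (h : u =ᶠ[𝓝 z] v) : lp u z = lp v z := by
  rw [P275NA.lp, P275NA.lp, db, wb_congr (wd_congr_ev (g := fun x => (v x : ℂ)) (h.mono fun x hx => by
    simp only [hx]) 1)]

theorem lp_of {U : ℂ → ℂ} (h : ∀ᶠ x in 𝓝 z, dz (fun x => (u x : ℂ)) x = U x) :
    lp u z = (db U z).re := by rw [P275NA.lp, db, wb_congr h]

theorem lp_const (c : ℝ) (z : ℂ) : lp (fun _ => c) z = 0 := by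
  rw [lp_eq contDiffAt_const, levi_const, zero_div]

theorem lp_add (hu : ContDiffAt ℝ 2 u z) (hv : ContDiffAt ℝ 2 v z) :
    lp (fun x => u x + v x) z = lp u z + lp v z := by
  rw [lp_eq (hu.add hv), lp_eq hu, lp_eq hv, levi_add hu hv, add_div]

theorem lp_neg (hu : ContDiffAt ℝ 2 u z) : lp (fun x => -u x) z = -lp u z := by
  rw [lp_eq hu.neg, lp_eq hu, levi_neg, neg_div]

theorem lp_sub (hu : ContDiffAt ℝ 2 u z) (hv : ContDiffAt ℝ 2 v z) :
    lp (fun x => u x - v x) z = lp u z - lp v z := by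
  simp only [sub_eq_add_neg]
  rw [lp_add hu hv.neg, lp_neg hv]

theorem lp_cmul (c : ℝ) (hu : ContDiffAt ℝ 2 u z) : lp (fun x => c * u x) z = c * lp u z := by
  have h2 := cd_ofReal hu
  rw [lp_of (U := fun x => (c : ℂ) • dz (fun x => (u x : ℂ)) x) ((c2_ev h2).mono fun x hx => by
    simp only [ofReal_mul]
    exact wd_const_smul (c : ℂ) (c2_df hx) 1), db, wb_const_smul _ (df_dz h2), smul_eq_mul,
    re_ofReal_mul, P275NA.lp]

theorem lp_log (hu : ContDiffAt ℝ 2 u z) (h0 : u z ≠ 0) : lp (fun x => Real.log (u x)) z =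
    lp u z / u z - ‖dz (fun x => (u x : ℂ)) z‖ ^ 2 / u z ^ 2 := by
  rw [lp_eq (hu.log h0), lp_eq hu, levi_log hu h0]
  ring

theorem lp_comp {φ : ℂ → ℂ} (hu : ContDiffAt ℝ 2 u (φ z)) (hφ : AnalyticAt ℂ φ z) :
    lp (fun x => u (φ x)) z = ‖deriv φ z‖ ^ 2 * lp u (φ z) := by
  have h2 := cd_ofReal hu
  rw [lp_of (U := fun x => deriv φ x • dz (fun x => (u x : ℂ)) (φ x))
    (((hφ.continuousAt.eventually (c2_ev h2)).and hφ.eventually_analyticAt).mono fun x hx =>
      dz_comp (f := fun x => (u x : ℂ)) (c2_df hx.1) hx.2.differentiableAt), db,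
    wb_smul (f := fun x => dz (fun x => (u x : ℂ)) (φ x)) (hol_df hφ.deriv)
      ((df_dz h2).comp z (hol_df hφ)), ← db, db_hol hφ.deriv, ← db,
    db_comp (df_dz h2) hφ.differentiableAt, lp_cx hu, zero_smul, zero_add, smul_smul, mul_conj',
    smul_eq_mul, ← ofReal_pow, ← ofReal_mul, ofReal_re]

end lp

variable {m n : Type} [Fintype m] [DecidableEq m] [Fintype n] [DecidableEq n]
  {k : ℂ → Mx m} {h : ℂ → Mx n} {g : ℂ → Matrix n m ℂ} {z : ℂ}

theorem MetAt.pd (H : MetAt h z) : (h z).PosDef := H.pos.self_of_nhds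

theorem MetAt.ev (H : MetAt h z) : ∀ᶠ x in 𝓝 z, MetAt h x :=
  ((c2_ev H.c2).and H.pos.eventually_nhds).mono fun _ hx => ⟨hx.1, hx.2⟩

theorem MetAt.df (H : MetAt h z) : DifferentiableAt ℝ h z := c2_df H.c2

theorem MetAt.congr {h' : ℂ → Mx n} (H : MetAt h z) (e : h' =ᶠ[𝓝 z] h) : MetAt h' z :=
  ⟨H.c2.congr_of_eventuallyEq e, (H.pos.and e).mono fun _ hx => hx.2 ▸ hx.1⟩

theorem herm_ev (H : ∀ᶠ x in 𝓝 z, (h x).PosDef) : (fun x => (h x)ᴴ) =ᶠ[𝓝 z] h :=
  H.mono fun _ hx => hx.isHermitian.eq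

theorem ct_dz (hd : DifferentiableAt ℝ h z) (H : ∀ᶠ x in 𝓝 z, (h x).PosDef) :
    (dz h z)ᴴ = db h z := by rw [← wb_ct hd, wb_congr (herm_ev H)]

theorem ct_db (hd : DifferentiableAt ℝ h z) (H : ∀ᶠ x in 𝓝 z, (h x).PosDef) :
    (db h z)ᴴ = dz h z := by rw [← ct_dz hd H, conjTranspose_conjTranspose]

theorem df_cn (H : MetAt h z) : DifferentiableAt ℝ (cn h) z :=
  df_mul (df_inv (MetAt.df H) (pd_ne (MetAt.pd H))) (df_dz H.c2)

theorem cn_congr {h' : ℂ → Mx n} (e : h =ᶠ[𝓝 z] h') : cn h =ᶠ[𝓝 z] cn h' :=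
  (e.and (wd_congr_ev e 1)).mono fun x hx => by rw [cn, cn, hx.1, dz, hx.2]

theorem cv_congr {h' : ℂ → Mx n} (e : h =ᶠ[𝓝 z] h') : cv h z = cv h' z := by
  rw [cv, cv, db, wb_congr (cn_congr e)]

theorem df_ad (hk : DifferentiableAt ℝ k z) (h0 : (k z).det ≠ 0) (hh : DifferentiableAt ℝ h z)
    (hg : DifferentiableAt ℝ g z) : DifferentiableAt ℝ (fun x => ad (k x) (h x) (g x)) z :=
  df_mul (df_mul (df_inv hk h0) (df_ct hg)) hh

theorem dz_ad (hk : DifferentiableAt ℝ k z) (h0 : (k z).det ≠ 0) (hh : DifferentiableAt ℝ h z)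
    (h1 : (h z).det ≠ 0) (hg : DifferentiableAt ℝ g z) : dz (fun x => ad (k x) (h x) (g x)) z =
      ad (k z) (h z) (db g z) + ad (k z) (h z) (g z) * cn h z - cn k z * ad (k z) (h z) (g z) := by
  simp only [ad, cn, dz]
  rw [wd_mul (df_mul (df_inv hk h0) (df_ct hg)) hh, wd_mul (df_inv hk h0) (df_ct hg),
    wd_minv hk h0, wd_ct hg]
  simp only [Matrix.add_mul, Matrix.neg_mul, Matrix.mul_assoc,
    mul_nonsing_inv_cancel_left _ _ h1.isUnit]
  abel

theorem db_ad (hk : DifferentiableAt ℝ k z) (pk : ∀ᶠ x in 𝓝 z, (k x).PosDef)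
    (hh : DifferentiableAt ℝ h z) (ph : ∀ᶠ x in 𝓝 z, (h x).PosDef) (hg : DifferentiableAt ℝ g z) :
    db (fun x => ad (k x) (h x) (g x)) z =
      ad (k z) (h z) (dz g z + cn h z * g z - g z * cn k z) := by
  have k0 := pk.self_of_nhds
  have h0 := ph.self_of_nhds
  simp only [ad, cn, db]
  rw [wb_mul (df_mul (df_inv hk (pd_ne k0)) (df_ct hg)) hh, wb_mul (df_inv hk (pd_ne k0)) (df_ct hg),
    wb_minv hk (pd_ne k0), wb_ct hg]
  simp only [conjTranspose_sub, conjTranspose_add, conjTranspose_mul, conjTranspose_nonsing_inv,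
    k0.isHermitian.eq, h0.isHermitian.eq, ct_dz hk pk, ct_dz hh ph, Matrix.add_mul, Matrix.neg_mul,
    Matrix.mul_assoc, Matrix.mul_add, Matrix.mul_sub, Matrix.sub_mul,
    nonsing_inv_mul _ (pd_det h0), Matrix.mul_one]
  abel

/-- `h` times the curvature -/
theorem cv_eq (H : MetAt h z) :
    cv h z = (h z)⁻¹ * (db h z * (h z)⁻¹ * dz h z - db (dz h) z) := by
  have d := MetAt.df H
  have h0 := pd_ne (MetAt.pd H)
  rw [cv, show cn h = fun x => (h x)⁻¹ * dz h x from rfl, db, wb_mul (df_inv d h0) (df_dz H.c2),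
    wb_minv d h0]
  simp only [Matrix.neg_mul, Matrix.mul_assoc, Matrix.mul_sub]
  abel

theorem ad_cv (H : MetAt h z) : ad (h z) (h z) (cv h z) = cv h z := by
  have d := MetAt.df H
  have p := MetAt.pd H
  have e : (db (dz h) z)ᴴ = db (dz h) z := by
    rw [← wd_ct (df_dz H.c2), wd_congr (g := db h) ((MetAt.ev H).mono fun x hx =>
      ct_dz (MetAt.df hx) hx.pos), db, wd_wb_comm H.c2]
  rw [cv_eq H, ad]
  simp only [conjTranspose_mul, conjTranspose_sub, conjTranspose_nonsing_inv, p.isHermitian.eq, e,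
    ct_dz d H.pos, ct_db d H.pos, Matrix.mul_assoc, nonsing_inv_mul _ (pd_det p), Matrix.mul_one]

theorem ad_hk (H : MetAt h z) (a : ℂ → Mx n) : ad (h z) (h z) (hk h a z) = hk h a z := by
  rw [hk, ad_add, ad_cv H, ad_br (MetAt.pd H)]

theorem det_re {h : Mx n} (hh : h.PosDef) : (h.det.re : ℂ) = h.det ∧ 0 < h.det.re := by
  have := hh.det_pos
  rw [Complex.lt_def] at this
  exact ⟨Complex.ext rfl this.2, this.1⟩

theorem cd_logdet (H : MetAt h z) : ContDiffAt ℝ 2 (fun x => Real.log (h x).det.re) z :=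
  (cd_re (cd_det H.c2)).log (det_re (MetAt.pd H)).2.ne'

theorem dz_logdet (H : MetAt h z) :
    dz (fun x => (Real.log (h x).det.re : ℂ)) z = trace (cn h z) := by
  have p := MetAt.pd H
  rw [dz, wd_log ((cd_re (cd_det H.c2)).differentiableAt two_ne_zero) (det_re p).2.ne',
    wd_congr (g := fun x => (h x).det) (H.pos.mono fun x hx => (det_re hx).1),
    wd_det (MetAt.df H) (pd_ne p), (det_re p).1, inv_mul_cancel_left₀ (pd_ne p), cn]

theorem lp_logdet (H : MetAt h z) :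
    lp (fun x => Real.log (h x).det.re) z = -(trace (cv h z)).re := by
  rw [lp_of ((MetAt.ev H).mono fun x hx => dz_logdet hx), db, wb_trace (df_cn H), cv, trace_neg,
    neg_re, neg_neg]

end Vale.Agent.P275HK
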