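import Vale.Agent.P275HK.Cal

/-!
P275 (helper28): the basic identity for maps of Higgs bundles, subbundles, change of frame.
-/

set_option linter.all false

open scoped Matrix.Norms.Operator Topology ComplexOrder ComplexConjugate
open Filter Set Matrix Complex
open Vale.Agent.P281Z.Hm
open Vale.Agent.P275NA

noncomputable section

namespace Vale.Agent.P275HK

variable {m n : Type} [Fintype m] [DecidableEq m] [Fintype n] [DecidableEq n]
  {k : ℂ → Mx m} {h : ℂ → Mx n} {g : ℂ → Matrix n m ℂ} {z : ℂ}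

/-- the `(1,0)` part of the Chern connection of `Hom` -/
def dH (k : ℂ → Mx m) (h : ℂ → Mx n) (g : ℂ → Matrix n m ℂ) (z : ℂ) : Matrix n m ℂ :=
  dz g z + cn h z * g z - g z * cn k z

theorem cd_nq {N : WithTop ℕ∞} (hk : ContDiffAt ℝ N k z) (h0 : (k z).det ≠ 0)
    (hh : ContDiffAt ℝ N h z) (hg : ContDiffAt ℝ N g z) :
    ContDiffAt ℝ N (fun x => nq (k x) (h x) (g x)) z :=
  cd_re (cd_trace (cd_mul (cd_ad hk h0 hh hg) hg))

/-- derivative of the pairing -/
theorem dz_pair {g' : ℂ → Matrix n m ℂ} (hk : DifferentiableAt ℝ k z) (h0 : (k z).det ≠ 0)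
    (hh : DifferentiableAt ℝ h z) (h1 : (h z).det ≠ 0) (hg : DifferentiableAt ℝ g z)
    (hg' : DifferentiableAt ℝ g' z) : dz (fun x => trace (ad (k x) (h x) (g x) * g' x)) z =
      trace (ad (k z) (h z) (db g z) * g' z) + trace (ad (k z) (h z) (g z) * dH k h g' z) := by
  have d := df_ad hk h0 hh hg
  rw [dz, wd_trace (df_mul d hg'), wd_mul d hg', ← dz, dz_ad hk h0 hh h1 hg, dH]
  simp only [Matrix.add_mul, Matrix.sub_mul, Matrix.mul_add, Matrix.mul_sub, trace_add, trace_sub]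
  rw [Matrix.mul_assoc (cn k z), trace_mul_comm (cn k z)]
  simp only [Matrix.mul_assoc, dz]
  ring

theorem db_pair {g' : ℂ → Matrix n m ℂ} (hk : DifferentiableAt ℝ k z)
    (pk : ∀ᶠ x in 𝓝 z, (k x).PosDef) (hh : DifferentiableAt ℝ h z)
    (ph : ∀ᶠ x in 𝓝 z, (h x).PosDef) (hg : DifferentiableAt ℝ g z)
    (hg' : DifferentiableAt ℝ g' z) : db (fun x => trace (ad (k x) (h x) (g x) * g' x)) z =
      trace (ad (k z) (h z) (dH k h g z) * g' z) + trace (ad (k z) (h z) (g z) * db g' z) := by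
  have d := df_ad hk (pd_ne pk.self_of_nhds) hh hg
  rw [db, wb_trace (df_mul d hg'), wb_mul d hg', ← db, db_ad hk pk hh ph hg, trace_add, dH]

theorem df_dH (Hk : MetAt k z) (Hh : MetAt h z) (hg : ContDiffAt ℝ 2 g z) :
    DifferentiableAt ℝ (dH k h g) z :=
  ((df_dz hg).add (df_mul (df_cn Hh) (c2_df hg))).sub (df_mul (c2_df hg) (df_cn Hk))

theorem db_dH (Hk : MetAt k z) (Hh : MetAt h z) (hg : ContDiffAt ℝ 2 g z) : db (dH k h g) z =
    db (dz g) z + cn h z * db g z - db g z * cn k z + g z * cv k z - cv h z * g z := by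
  have d := c2_df hg
  rw [show dH k h g = fun x => dz g x + cn h x * g x - g x * cn k x from rfl, db,
    wb_sub ((df_dz hg).fun_add (df_mul (df_cn Hh) d)) (df_mul d (df_cn Hk)),
    wb_add (df_dz hg) (df_mul (df_cn Hh) d), wb_mul (df_cn Hh) d, wb_mul d (df_cn Hk), cv, cv]
  simp only [Matrix.mul_neg, Matrix.neg_mul]
  abel

theorem dz_nq (Hk : MetAt k z) (Hh : MetAt h z) (hg : DifferentiableAt ℝ g z) :
    dz (fun x => (nq (k x) (h x) (g x) : ℂ)) z =
      trace (ad (k z) (h z) (db g z) * g z) + trace (ad (k z) (h z) (g z) * dH k h g z) := by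
  rw [dz, wd_congr (g := fun x => trace (ad (k x) (h x) (g x) * g x))
    ((Hk.pos.and Hh.pos).mono fun x hx => (tr_nq hx.1 hx.2 _).symm)]
  exact dz_pair (MetAt.df Hk) (pd_ne (MetAt.pd Hk)) (MetAt.df Hh) (pd_ne (MetAt.pd Hh)) hg hg

theorem dz_nq_hol (Hk : MetAt k z) (Hh : MetAt h z) (hg : AnalyticAt ℂ g z) :
    dz (fun x => (nq (k x) (h x) (g x) : ℂ)) z = trace (ad (k z) (h z) (g z) * dH k h g z) := by
  rw [dz_nq Hk Hh (hol_df hg), db_hol hg, ad_zero, Matrix.zero_mul, trace_zero, zero_add]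

/-- the Bochner identity for a holomorphic map of hermitian bundles -/
theorem lp_nq (Hk : MetAt k z) (Hh : MetAt h z) (hg : AnalyticAt ℂ g z) :
    lp (fun x => nq (k x) (h x) (g x)) z = nq (k z) (h z) (dH k h g z) +
      (trace (ad (k z) (h z) (g z) * g z * cv k z)).re -
      (trace (g z * ad (k z) (h z) (g z) * cv h z)).re := by
  rw [lp_of (((MetAt.ev Hk).and ((MetAt.ev Hh).and hg.eventually_analyticAt)).mono fun x hx =>
      dz_nq_hol hx.1 hx.2.1 hx.2.2),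
    db_pair (MetAt.df Hk) Hk.pos (MetAt.df Hh) Hh.pos (hol_df hg) (df_dH Hk Hh (hol_cd hg)),
    db_dH Hk Hh (hol_cd hg), db_hol hg, db_hol (hol_dz hg), nq,
    Matrix.mul_assoc (g z), trace_mul_comm (g z)]
  simp only [Matrix.mul_zero, Matrix.zero_mul, add_zero, sub_zero, zero_add, Matrix.mul_sub,
    trace_sub, Matrix.mul_assoc, add_re, sub_re]
  ring

theorem nq_br {k a : Mx m} {h b : Mx n} {g : Matrix n m ℂ} (pk : k.PosDef) (ph : h.PosDef)
    (e : g * a = b * g) : nq k h (ad h h b * g - g * ad k k a) +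
      (trace (ad k h g * g * br k a)).re - (trace (g * ad k h g * br h b)).re = 0 := by
  have e' : ad k k a * ad k h g = ad k h g * ad h h b := by
    rw [← ad_mul k (pd_det pk), e, ad_mul k (pd_det ph)]
  rw [nq, ad_sub, ad_mul k (pd_det ph), ad_mul k (pd_det pk), ad_ad ph ph, ad_ad pk pk, br, br,
    ← add_re, ← sub_re]
  generalize ad k h g = s at *
  generalize ad k k a = a' at *
  generalize ad h h b = b' at *
  have t1 : trace (s * b * (b' * g)) = trace (g * s * (b * b')) := by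
    rw [← Matrix.mul_assoc, trace_mul_comm]; simp only [Matrix.mul_assoc]
  have t2 : trace (s * b * (g * a')) = trace (s * g * (a * a')) := by
    rw [Matrix.mul_assoc, ← Matrix.mul_assoc b, ← e]; simp only [Matrix.mul_assoc]
  have t3 : trace (a * s * (b' * g)) = trace (g * s * (b' * b)) := by
    rw [Matrix.mul_assoc, trace_mul_comm, Matrix.mul_assoc, Matrix.mul_assoc, e,
      ← Matrix.mul_assoc b', ← Matrix.mul_assoc s, trace_mul_comm]
    simp only [Matrix.mul_assoc]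
  have t4 : trace (a * s * (g * a')) = trace (s * g * (a' * a)) := by
    rw [Matrix.mul_assoc, trace_mul_comm]; simp only [Matrix.mul_assoc]
  simp only [Matrix.sub_mul, Matrix.mul_sub, trace_sub, t1, t2, t3, t4]
  ring_nf
  rfl

theorem lp_log_nq (Hk : MetAt k z) (Hh : MetAt h z) (hg : AnalyticAt ℂ g z) (h0 : g z ≠ 0) :
    lp (fun x => nq (k x) (h x) (g x)) z - nq (k z) (h z) (dH k h g z) ≤
      nq (k z) (h z) (g z) * lp (fun x => Real.log (nq (k x) (h x) (g x))) z := by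
  have pk := MetAt.pd Hk
  have ph := MetAt.pd Hh
  have p := nq_pos pk ph h0
  rw [lp_log (cd_nq Hk.c2 (pd_ne pk) Hh.c2 (hol_cd hg)) p.ne', dz_nq_hol Hk Hh hg, mul_sub,
    mul_div_cancel₀ _ p.ne', sub_le_sub_iff_left, ← mul_div_assoc, div_le_iff₀ (by positivity)]
  nlinarith [mul_le_mul_of_nonneg_left (cs_nq pk ph (g z) (dH k h g z)) p.le]

theorem homk : HOMK := by
  intro m n _ _ _ _ k a h b g z Hk Hh hg e
  have e1 := lp_nq Hk Hh hg
  have e2 := nq_br (MetAt.pd Hk) (MetAt.pd Hh) e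
  refine ⟨cd_nq Hk.c2 (pd_ne (MetAt.pd Hk)) Hh.c2 (hol_cd hg), ?_, fun h0 => ?_⟩
  · simp only [hk, Matrix.mul_add, trace_add, add_re]
    rw [dH] at e1
    linarith
  · have e3 := lp_log_nq Hk Hh hg h0
    simp only [hk, Matrix.mul_add, trace_add, add_re]
    linarith

theorem met_gram {t : ℂ → Matrix n m ℂ} (Hh : MetAt h z) (ht : ContDiffAt ℝ 2 t z)
    (hi : Function.Injective (t z).mulVec) : MetAt (fun x => (t x)ᴴ * h x * t x) z := by
  have c := cd_mul (cd_mul (cd_ct ht) Hh.c2) ht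
  refine ⟨c, ?_⟩
  filter_upwards [Hh.pos, (cd_det c).continuousAt.eventually_ne
    (pd_ne ((MetAt.pd Hh).conjTranspose_mul_mul_same hi))] with x h1 h2
  exact (h1.posSemidef.conjTranspose_mul_mul_same _).posDef_iff_isUnit.2
    ((isUnit_iff_isUnit_det _).2 h2.isUnit)

theorem ad_gram {h : Mx n} {t : Matrix n m ℂ} (p : (tᴴ * h * t).PosDef) :
    ad (tᴴ * h * t) h t * t = 1 := by
  rw [ad, Matrix.mul_assoc, Matrix.mul_assoc, ← Matrix.mul_assoc tᴴ, nonsing_inv_mul _ (pd_det p)]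

theorem pr_eq (h : Mx n) (t : Matrix n m ℂ) : t * ad (tᴴ * h * t) h t = pr h t := by
  simp only [ad, pr, Matrix.mul_assoc]

/-- the exact form of `SFF` -/
theorem sff_eq {b : ℂ → Mx n} {t : ℂ → Matrix n m ℂ} {c : Mx m} (Hh : MetAt h z)
    (ht : AnalyticAt ℂ t z) (hi : Function.Injective (t z).mulVec) (e : b z * t z = t z * c) :
    (trace (cv (fun x => (t x)ᴴ * h x * t x) z)).re +
      nq ((t z)ᴴ * h z * t z) (h z) (dH (fun x => (t x)ᴴ * h x * t x) h t z) +
      nq ((t z)ᴴ * h z * t z) (h z) (ad (h z) (h z) (b z) * t z -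
        t z * ad ((t z)ᴴ * h z * t z) ((t z)ᴴ * h z * t z) c) =
      (trace (pr (h z) (t z) * hk h b z)).re := by
  have Hk := met_gram Hh (hol_cd ht) hi
  have e1 := (homk m n _ (fun _ => c) h b t z Hk Hh ht e.symm).2.1
  rw [lp_congr (v := fun _ => (Fintype.card m : ℝ)) (Hk.pos.mono fun x hx => by
    simp only [nq, ad_gram hx, trace_one, natCast_re]), lp_const, ad_gram (MetAt.pd Hk), pr_eq,
    Matrix.one_mul, hk, trace_add, tr_br, add_zero] at e1
  rw [dH]
  linarith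

theorem sff : SFF := by
  intro m n _ _ _ _ h b t c z Hh ht hi e
  have Hk := met_gram Hh (hol_cd ht) hi
  refine ⟨Hk, (le_add_of_nonneg_right ?_).trans ((le_add_of_nonneg_right ?_).trans_eq
    (sff_eq Hh ht hi e))⟩ <;> exact nq_nonneg (MetAt.pd Hk) (MetAt.pd Hh) _

theorem MetAt.comp {φ : ℂ → ℂ} (H : MetAt h (φ z)) (hφ : AnalyticAt ℂ φ z) :
    MetAt (fun x => h (φ x)) z :=
  ⟨H.c2.comp z (hol_cd hφ), hφ.continuousAt.eventually H.pos⟩

theorem cn_comp {φ : ℂ → ℂ} (hd : DifferentiableAt ℝ h (φ z)) (hφ : DifferentiableAt ℂ φ z) :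
    cn (fun x => h (φ x)) z = deriv φ z • cn h (φ z) := by
  rw [cn, cn, dz_comp hd hφ, Matrix.mul_smul]

theorem cv_comp {φ : ℂ → ℂ} (H : MetAt h (φ z)) (hφ : AnalyticAt ℂ φ z) :
    cv (fun x => h (φ x)) z = ((‖deriv φ z‖ ^ 2 : ℝ) : ℂ) • cv h (φ z) := by
  rw [cv, cv, db, wb_congr (g := fun x => deriv φ x • cn h (φ x))
    (((hφ.continuousAt.eventually (MetAt.ev H)).and hφ.eventually_analyticAt).mono fun x hx =>
      cn_comp (MetAt.df hx.1) hx.2.differentiableAt),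
    wb_smul (f := fun x => cn h (φ x)) (hol_df hφ.deriv) ((df_cn H).comp z (hol_df hφ)), ← db,
    db_hol hφ.deriv, ← db, db_comp (df_cn H) hφ.differentiableAt, zero_smul, zero_add, smul_smul,
    mul_conj', smul_neg, ofReal_pow]

theorem inj_of_det {P : Mx n} (h0 : P.det ≠ 0) : Function.Injective P.mulVec :=
  mulVec_injective_of_isUnit ((isUnit_iff_isUnit_det _).2 h0.isUnit)

theorem ct_det {P : Mx n} (h0 : P.det ≠ 0) : IsUnit Pᴴ.det := by
  rw [det_conjTranspose]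
  exact (star_ne_zero.2 h0).isUnit

theorem cn_frame {P : ℂ → Mx n} (hd : DifferentiableAt ℝ h z) (h1 : (h z).det ≠ 0)
    (hP : AnalyticAt ℂ P z) (h0 : (P z).det ≠ 0) : cn (fun x => (P x)ᴴ * h x * P x) z =
      (P z)⁻¹ * cn h z * P z + (P z)⁻¹ * dz P z := by
  have d := hol_df hP
  rw [cn, cn, dz, wd_mul (df_mul (df_ct d) hd) d, wd_mul (df_ct d) hd, wd_ct d, ← db, db_hol hP,
    Matrix.mul_inv_rev, Matrix.mul_inv_rev]
  simp only [conjTranspose_zero, Matrix.zero_mul, zero_add, Matrix.mul_add, Matrix.mul_assoc,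
    nonsing_inv_mul_cancel_left _ _ (ct_det h0), nonsing_inv_mul_cancel_left _ _ h1.isUnit]

theorem cv_frame {P : ℂ → Mx n} (H : MetAt h z) (hP : AnalyticAt ℂ P z) (h0 : (P z).det ≠ 0) :
    cv (fun x => (P x)ᴴ * h x * P x) z = (P z)⁻¹ * cv h z * P z := by
  have hi := an_inv hP h0
  rw [cv, cv, db, wb_congr (g := fun x => (P x)⁻¹ * cn h x * P x + (P x)⁻¹ * dz P x)
    (((MetAt.ev H).and (hP.eventually_analyticAt.and
      ((an_det hP).continuousAt.eventually_ne h0))).mono fun x hx =>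
      cn_frame (MetAt.df hx.1) (pd_ne (MetAt.pd hx.1)) hx.2.1 hx.2.2),
    wb_add (df_mul (df_mul (hol_df hi) (df_cn H)) (hol_df hP)) (hol_df (an_mul hi (hol_dz hP))),
    wb_mul (df_mul (hol_df hi) (df_cn H)) (hol_df hP), wb_mul (hol_df hi) (df_cn H),
    wb_hol hi.differentiableAt, wb_hol hP.differentiableAt,
    wb_hol (an_mul hi (hol_dz hP)).differentiableAt]
  simp only [Matrix.zero_mul, Matrix.mul_zero, zero_add, add_zero, Matrix.mul_neg, Matrix.neg_mul]

theorem ad_frame {P : Mx m} {Q : Mx n} (hP : P.det ≠ 0) (hQ : Q.det ≠ 0) (k : Mx m) (h : Mx n)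
    (g : Matrix n m ℂ) : ad (Pᴴ * k * P) (Qᴴ * h * Q) (Q⁻¹ * g * P) = P⁻¹ * ad k h g * Q := by
  simp only [ad, Matrix.mul_inv_rev, conjTranspose_mul, conjTranspose_nonsing_inv, Matrix.mul_assoc,
    nonsing_inv_mul_cancel_left _ _ (ct_det hP), nonsing_inv_mul_cancel_left _ _ (ct_det hQ)]

theorem nq_frame {P : Mx m} {Q : Mx n} (hP : P.det ≠ 0) (hQ : Q.det ≠ 0) (k : Mx m) (h : Mx n)
    (g : Matrix n m ℂ) : nq (Pᴴ * k * P) (Qᴴ * h * Q) (Q⁻¹ * g * P) = nq k h g := by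
  rw [nq, nq, ad_frame hP hQ, Matrix.mul_assoc, Matrix.mul_assoc, trace_mul_comm]
  simp only [Matrix.mul_assoc, mul_nonsing_inv_cancel_left _ _ hQ.isUnit,
    mul_nonsing_inv _ hP.isUnit, Matrix.mul_one]

theorem br_frame {P : Mx n} (hP : P.det ≠ 0) (h a : Mx n) :
    br (Pᴴ * h * P) (P⁻¹ * a * P) = P⁻¹ * br h a * P := by
  simp only [br, ad_frame hP hP]
  simp only [Matrix.mul_sub, Matrix.sub_mul, Matrix.mul_assoc,
    mul_nonsing_inv_cancel_left _ _ hP.isUnit]

theorem chg : CHG := by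
  intro n _ _ h a P φ z hφ H hP h0
  have H' := MetAt.comp H hφ
  have e : cv (fun x => (P x)ᴴ * h (φ x) * P x) z =
      ((‖deriv φ z‖ ^ 2 : ℝ) : ℂ) • ((P z)⁻¹ * cv h (φ z) * P z) := by
    rw [cv_frame H' hP h0, cv_comp H hφ, Matrix.mul_smul, Matrix.smul_mul]
  refine ⟨met_gram H' (hol_cd hP) (inj_of_det h0), e, fun a' c hc ha => ?_, ad_hk H a, lp_logdet H⟩
  rw [hk, hk, e, ha, br_smul, br_frame h0, hc, Matrix.mul_add, Matrix.add_mul, smul_add]

end Vale.Agent.P275HK
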