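import Vale.Agent.P275HK.Alg
import Mathlib.LinearAlgebra.Matrix.Rank
import Mathlib.Analysis.Complex.Polynomial.Basic

/-!
P275 (helper28): more linear algebra.
-/

set_option linter.all false

open scoped Matrix.Norms.Operator Topology ComplexOrder ComplexConjugate
open Filter Set Matrix Complex
open Vale.Agent.P281Z.Hm (Mx)
open Vale.Agent.P275NA

noncomputable section

namespace Vale.Agent.P275HK

variable {l m n : Type} [Fintype l] [DecidableEq l] [Fintype m] [DecidableEq m] [Fintype n]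
  [DecidableEq n] {k : Mx m} {h : Mx n}

theorem tr_ad_symm (hk : k.PosDef) (hh : h.PosDef) (g g' : Matrix n m ℂ) :
    trace (ad k h g' * g) = conj (trace (ad k h g * g')) := by
  rw [← tr_ad (pd_det hk), ad_mul k (pd_det hh), ad_ad hk hh]

theorem nq_add (hk : k.PosDef) (hh : h.PosDef) (g g' : Matrix n m ℂ) :
    nq k h (g + g') = nq k h g + nq k h g' + 2 * (trace (ad k h g * g')).re := by
  rw [nq, ad_add, Matrix.add_mul, Matrix.mul_add, Matrix.mul_add, trace_add, trace_add, trace_add,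
    tr_ad_symm hk hh g g', add_re, add_re, add_re, conj_re, nq, nq]
  ring

theorem nq_sub (hk : k.PosDef) (hh : h.PosDef) (g g' : Matrix n m ℂ) :
    nq k h (g - g') = nq k h g + nq k h g' - 2 * (trace (ad k h g * g')).re := by
  rw [sub_eq_add_neg, nq_add hk hh, nq_neg, Matrix.mul_neg, trace_neg, neg_re]
  ring

theorem nq_add_le (hk : k.PosDef) (hh : h.PosDef) (g g' : Matrix n m ℂ) :
    nq k h (g + g') ≤ 2 * nq k h g + 2 * nq k h g' := by
  have := nq_nonneg hk hh (g - g')
  rw [nq_sub hk hh] at this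
  rw [nq_add hk hh]
  linarith

theorem nq_sub_le (hk : k.PosDef) (hh : h.PosDef) (g g' : Matrix n m ℂ) :
    nq k h (g - g') ≤ 2 * nq k h g + 2 * nq k h g' := by
  rw [sub_eq_add_neg, ← nq_neg k h g']
  exact nq_add_le hk hh _ _

theorem nq_one (hh : h.PosDef) : nq h h 1 = Fintype.card n := by
  rw [nq, ad_one (pd_det hh), Matrix.mul_one, trace_one, natCast_re]

theorem nq_br_le (hh : h.PosDef) (a : Mx n) : nq h h (br h a) ≤ 4 * nq h h a ^ 2 := by
  have h1 := nq_mul hh hh hh a (ad h h a)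
  have h2 := nq_mul hh hh hh (ad h h a) a
  rw [nq_ad hh hh] at h1 h2
  have := nq_sub_le hh hh (a * ad h h a) (ad h h a * a)
  rw [br]
  nlinarith

theorem norm_tr_le (hh : h.PosDef) (X : Mx n) : ‖trace X‖ ^ 2 ≤ Fintype.card n * nq h h X := by
  have := cs_nq hh hh 1 X
  rwa [ad_one (pd_det hh), Matrix.one_mul, nq_one hh] at this

theorem tr_pr {t : Matrix n m ℂ} (hh : h.PosDef) (hi : Function.Injective t.mulVec) :
    trace (pr h t) = Fintype.card m := by
  rw [pr, Matrix.mul_assoc, Matrix.mul_assoc, trace_mul_comm, Matrix.mul_assoc,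
    nonsing_inv_mul _ (pd_det (hh.conjTranspose_mul_mul_same hi)), trace_one]

/-- simultaneous diagonalisation -/
theorem simul {k h : Mx n} (hk : k.PosDef) (hh : h.IsHermitian) : ∃ (P : Mx n) (d : n → ℝ),
    P.det ≠ 0 ∧ Pᴴ * k * P = 1 ∧ Pᴴ * h * P = diagonal (fun i => (d i : ℂ)) ∧
      (h.PosDef → ∀ i, 0 < d i) ∧ (h.PosSemidef → ∀ i, 0 ≤ d i) := by
  obtain ⟨Q, hQ, rfl⟩ := ex_sq hk
  have H := isHermitian_conjTranspose_mul_mul Q⁻¹ hh
  have hU := H.conjStarAlgAut_star_eigenvectorUnitary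
  rw [Unitary.conjStarAlgAut_apply] at hU
  simp only [Unitary.coe_star, star_star, star_eq_conjTranspose] at hU
  set U : Mx n := H.eigenvectorUnitary.1 with hUd
  have u1 : Uᴴ * U = 1 := Unitary.coe_star_mul_self H.eigenvectorUnitary
  have hi : Function.Injective (Q⁻¹).mulVec :=
    mulVec_injective_of_isUnit ((isUnit_iff_isUnit_det _).2 (isUnit_nonsing_inv_det _ hQ))
  refine ⟨Q⁻¹ * U, H.eigenvalues, ?_, ?_, ?_, fun p => (p.conjTranspose_mul_mul_same hi).eigenvalues_pos,
    fun p => (p.conjTranspose_mul_mul_same Q⁻¹).eigenvalues_nonneg⟩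
  · rw [det_mul]
    exact mul_ne_zero (isUnit_nonsing_inv_det _ hQ).ne_zero
      (right_ne_zero_of_mul_eq_one (by rw [← det_mul, u1, det_one]))
  · rw [← Matrix.mul_assoc _ Qᴴ, ← conjTranspose_mul, Matrix.mul_assoc,
      mul_nonsing_inv_cancel_left _ _ hQ, u1]
  · rw [conjTranspose_conjTranspose] at hU
    rw [conjTranspose_mul]
    refine Eq.trans ?_ (hU.trans rfl)
    simp only [Matrix.mul_assoc]

theorem det_of_rank {u : Mx n} (e : u.rank = Fintype.card n) : u.det ≠ 0 := fun h0 => by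
  obtain ⟨v, v0, hv⟩ := exists_mulVec_eq_zero_iff.2 h0
  have := LinearMap.finrank_range_add_finrank_ker u.mulVecLin
  rw [← Matrix.rank, e, Module.finrank_fintype_fun_eq_card, add_eq_left,
    Submodule.finrank_eq_zero] at this
  exact v0 ((Submodule.mem_bot ℂ).1 (this ▸ (show v ∈ LinearMap.ker u.mulVecLin from hv)))

theorem zero_of_rank {u : Matrix n m ℂ} (e : u.rank = 0) : u = 0 := by
  rw [Matrix.rank, Submodule.finrank_eq_zero, LinearMap.range_eq_bot] at e
  exact Matrix.toLin'.injective (e.trans (map_zero _).symm)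

theorem ex_eig [Nonempty n] (u : Mx n) : ∃ μ : ℂ, (u - μ • 1).det = 0 := by
  obtain ⟨μ, hμ⟩ := Complex.exists_root (f := u.charpoly) (by
    rw [charpoly_degree_eq_dim]; exact_mod_cast Fintype.card_pos)
  rw [Polynomial.IsRoot, eval_charpoly] at hμ
  refine ⟨μ, ?_⟩
  rw [← neg_sub, det_neg, smul_one_eq_diagonal]
  exact mul_eq_zero_of_right _ hμ

end Vale.Agent.P275HK
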