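import Vale.Agent.P275HK.Hom
import Vale.Agent.P284Z.F0.Ball

/-!
P275 (helper28): maximum principles and Simpson's bound at a maximum.
-/

set_option linter.all false

open scoped Matrix.Norms.Operator Topology ComplexOrder ComplexConjugate
open Filter Set Matrix Complex Metric
open Vale.Agent.P281Z.Hm
open Vale.Agent.P275NA
open Vale.Agent.P284Z (levi)

noncomputable section

namespace Vale.Agent.P275HK

section mx
variable {u : ℂ → ℝ} {z : ℂ}

theorem hess_nonpos (hu : ContDiffAt ℝ 2 u z) (hm : IsLocalMax u z) (w : ℂ) :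
    fderiv ℝ (fderiv ℝ u) z w w ≤ 0 := by
  refine le_of_forall_pos_le_add fun η hη => ?_
  have h1 := (P284Z.taylor2 hu (η := η / (2 * (‖w‖ ^ 2 + 1))) (by positivity)).and hm
  have h2 : Tendsto (fun t : ℝ => z + t • w) (𝓝[>] 0) (𝓝 z) := by
    have : Continuous fun t : ℝ => z + t • w := by fun_prop
    simpa using (this.tendsto 0).mono_left nhdsWithin_le_nhds
  obtain ⟨t, ⟨h3, h4⟩, h5⟩ := ((h2.eventually h1).and self_mem_nhdsWithin).exists
  have h6 : 0 < t ^ 2 := pow_pos h5 2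
  simp only [add_sub_cancel_left, hm.fderiv_eq_zero, map_smul, _root_.smul_apply,
    _root_.zero_apply, smul_eq_mul, norm_smul, mul_pow, Real.norm_eq_abs,
    sq_abs] at h3
  have h7 : η / (2 * (‖w‖ ^ 2 + 1)) * ‖w‖ ^ 2 ≤ η / 2 := by
    rw [div_mul_eq_mul_div, div_le_div_iff₀ (by positivity) two_pos]
    nlinarith [sq_nonneg ‖w‖]
  refine le_of_mul_le_mul_left ?_ h6
  nlinarith [(abs_le.1 h3).1, mul_le_mul_of_nonneg_left h7 h6.le]

theorem lp_max (hu : ContDiffAt ℝ 2 u z) (hm : IsLocalMax u z) : lp u z ≤ 0 := by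
  rw [lp_eq hu]
  exact div_nonpos_of_nonpos_of_nonneg (add_nonpos (hess_nonpos hu hm _) (hess_nonpos hu hm _))
    (by norm_num)

theorem lp_min (hu : ContDiffAt ℝ 2 u z) (hm : IsLocalMin u z) : 0 ≤ lp u z := by
  have := lp_max hu.neg hm.neg
  rwa [lp_neg hu, neg_nonpos] at this

theorem dz_max (hm : IsLocalMax u z) (hu : DifferentiableAt ℝ u z) :
    dz (fun x => (u x : ℂ)) z = 0 := by
  have e : ∀ t, fderiv ℝ (fun x => (u x : ℂ)) z t = 0 := fun t => by
    rw [show (fun x => (u x : ℂ)) = ofRealCLM ∘ u from rfl,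
      (ofRealCLM.hasFDerivAt.comp z hu.hasFDerivAt).fderiv, hm.fderiv_eq_zero]
    simp
  rw [dz, wd, e, e]
  simp

theorem levi_dir (hu : ContDiffAt ℝ 2 u z) (w : ℂ) : levi u z w = 4 * (‖w‖ ^ 2 * lp u z) := by
  have h2 := cd_ofReal hu
  have e : ∀ x, wd w (fun x => (u x : ℂ)) x = w • dz (fun x => (u x : ℂ)) x := fun x => by
    rw [dz, ← wd_smulv, smul_eq_mul, mul_one]
  rw [levi_eq hu, funext e, wb_const_smul _ (df_dz h2), show wb w (dz fun x => (u x : ℂ)) z =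
    conj w • db (dz fun x => (u x : ℂ)) z by rw [db, ← wb_smulv, smul_eq_mul, mul_one], lp_cx hu,
    smul_smul, mul_conj', smul_eq_mul, ← ofReal_pow, ← ofReal_mul, ofReal_re]

theorem cd_sq (c z : ℂ) {N : WithTop ℕ∞} : ContDiffAt ℝ N (fun x : ℂ => ‖x - c‖ ^ 2) z :=
  (contDiff_norm_sq ℝ).contDiffAt.comp z (contDiffAt_id.sub contDiffAt_const)

theorem lp_sq (c z : ℂ) : lp (fun x : ℂ => ‖x - c‖ ^ 2) z = 1 := by
  have a : ∀ x, AnalyticAt ℂ (fun x : ℂ => x - c) x := fun x => analyticAt_id.sub analyticAt_const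
  have d : ∀ x, wd 1 (fun x : ℂ => x - c) x = 1 := fun x => by
    rw [← dz, dz_hol (a x).differentiableAt]; simp
  rw [lp_of (U := fun x => conj (x - c)) (Eventually.of_forall fun x => by
    rw [show (fun x : ℂ => ((‖x - c‖ ^ 2 : ℝ) : ℂ)) = fun x => (x - c) * conj (x - c) from
      funext fun x => by rw [mul_conj', ofReal_pow], dz,
      wd_cmul (hol_df (a x)) (df_conj (hol_df (a x))), wd_conj (hol_df (a x)), d,
      wb_hol (a x).differentiableAt]
    simp), db, wb_conj (hol_df (a z)), d]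
  simp

/-- a function with positive Laplacian where it exceeds `B` -/
theorem max_bd {K : Set ℂ} (hK : IsCompact K) (hc : ContinuousOn u K) {B : ℝ}
    (h : ∀ z ∈ K, u z ≤ B ∨ (K ∈ 𝓝 z ∧ ContDiffAt ℝ 2 u z ∧ 0 < lp u z)) : ∀ z ∈ K, u z ≤ B := by
  intro z hz
  obtain ⟨y, hy, hm⟩ := hK.exists_isMaxOn ⟨z, hz⟩ hc
  rcases h y hy with h | ⟨h1, h2, h3⟩
  · exact (hm hz).trans h
  · exact absurd (lp_max h2 (hm.isLocalMax h1)) (not_le.2 h3)

theorem weak_max {c : ℂ} {r M B : ℝ} (hM : 0 ≤ M) (hc : ContinuousOn u (closedBall c r))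
    (hu : ∀ z ∈ ball c r, ContDiffAt ℝ 2 u z ∧ -M ≤ lp u z) (hB : ∀ z ∈ sphere c r, u z ≤ B) :
    ∀ z ∈ closedBall c r, u z ≤ B + M * r ^ 2 := by
  intro z hz
  refine le_of_forall_pos_le_add fun ε hε => ?_
  set η := ε / (r ^ 2 + 1)
  have hη : 0 < η := by positivity
  have h1 : η * r ^ 2 ≤ ε := by
    rw [div_mul_eq_mul_div, div_le_iff₀ (by positivity)]
    nlinarith
  have := max_bd (u := fun x => u x + (M + η) * ‖x - c‖ ^ 2) (B := B + (M + η) * r ^ 2)
    (isCompact_closedBall c r) (hc.add (by fun_prop)) (fun x hx => by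
      rcases (mem_closedBall.1 hx).eq_or_lt with e | e
      · left
        rw [← dist_eq_norm, e]
        linarith [hB x e]
      · obtain ⟨h2, h3⟩ := hu x e
        refine Or.inr ⟨closedBall_mem_nhds_of_mem e, h2.add (contDiffAt_const.mul (cd_sq c x)), ?_⟩
        rw [lp_add h2 (contDiffAt_const.mul (cd_sq c x)), lp_cmul _ (cd_sq c x), lp_sq]
        linarith) z hz
  nlinarith [mul_nonneg (add_nonneg hM hη.le) (sq_nonneg ‖z - c‖)]

theorem psh_of {U : Set ℂ} (h : ∀ z ∈ U, ContDiffAt ℝ 2 u z ∧ 0 ≤ lp u z) : P284Z.Psh u U :=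
  P284Z.psh_of_levi fun z hz => ⟨(h z hz).1, fun w => by
    rw [levi_dir (h z hz).1]
    have := (h z hz).2
    positivity⟩

/-- the strong maximum principle -/
theorem strong_max {U : Set ℂ} (hU : IsOpen U) (hc : IsPreconnected U) (hz : z ∈ U)
    (h : ∀ y ∈ U, ContDiffAt ℝ 2 u y ∧ 0 ≤ lp u y ∧ u y ≤ u z) : ∀ y ∈ U, u y = u z :=
  (psh_of fun y hy => ⟨(h y hy).1, (h y hy).2.1⟩).eq_of_max
    (.of_cont fun y hy => (h y hy).1.continuousAt.continuousWithinAt) hU hc hz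
    fun y hy => (h y hy).2.2

end mx

theorem maxp : MAXP :=
  ⟨fun _ _ => lp_max, fun _ _ _ _ _ => weak_max, fun _ c r h y hy =>
    strong_max isOpen_ball (convex_ball c r).isPreconnected
      (mem_ball_self (pos_of_mem_ball hy)) h y hy⟩

variable {n : Type} [Fintype n] [DecidableEq n]

/-- Simpson's inequality at a local maximum of `σ |a|²`; the Higgs field is `b = c a` with
`|c|² = σ ρ` -/
theorem simp_max {h a b : ℂ → Mx n} {σ : ℂ → ℝ} {z c : ℂ} {ρ M L : ℝ} (H : MetAt h z)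
    (ha : AnalyticAt ℂ a z) (hσ : ContDiffAt ℝ 2 σ z) (p : 0 < σ z) (hρ : 0 < ρ) (hM : 0 ≤ M)
    (hm : IsLocalMax (fun x => σ x * nq (h x) (h x) (a x)) z) (hb : b z = c • a z)
    (hc : ‖c‖ ^ 2 = σ z * ρ) (hK : nq (h z) (h z) (hk h b z) ≤ (M * ρ) ^ 2)
    (hL : -(L * ρ) ≤ lp (fun x => Real.log (σ x)) z) :
    σ z ^ 2 * nq (h z) (h z) (br (h z) (a z)) ≤ (2 * M + L) * (σ z * nq (h z) (h z) (a z)) := by
  have ph := MetAt.pd H
  by_cases h0 : a z = 0
  · simp [h0, br, nq, ad]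
  have q := nq_pos ph ph h0
  obtain ⟨c2, -, e⟩ := homk n n h b h b a z H H ha (by
    rw [hb, Matrix.mul_smul, Matrix.smul_mul])
  have e := e h0
  obtain ⟨-, -, n1, n2⟩ := (nrm n n).2 _ _ (a z) (hk h b z) (hk h b z) (M * ρ) ph ph (by positivity)
  have k1 : lp (fun x => Real.log (σ x)) z + lp (fun x => Real.log (nq (h x) (h x) (a x))) z ≤ 0 := by
    have ev : ∀ᶠ x in 𝓝 z, 0 < σ x ∧ 0 < nq (h x) (h x) (a x) :=
      (hσ.continuousAt.eventually (lt_mem_nhds p)).and (c2.continuousAt.eventually (lt_mem_nhds q))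
    rw [← lp_add (hσ.log p.ne') (c2.log q.ne')]
    refine lp_max ((hσ.log p.ne').add (c2.log q.ne')) ?_
    filter_upwards [ev, hm] with x hx h1
    rw [← Real.log_mul hx.1.ne' hx.2.ne', ← Real.log_mul p.ne' q.ne']
    exact Real.log_le_log (mul_pos hx.1 hx.2) h1
  rw [hb, ad_smul, Matrix.smul_mul, Matrix.mul_smul, ← smul_sub, nq_smul, RCLike.norm_conj, hc,
    ← nq_neg, neg_sub, ← br] at e
  have k2 := mul_le_mul_of_nonneg_left (show lp (fun x => Real.log (nq (h x) (h x) (a x))) z ≤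
    L * ρ by linarith) q.le
  have k3 : ρ * (σ z * nq (h z) (h z) (br (h z) (a z))) ≤
      ρ * ((2 * M + L) * nq (h z) (h z) (a z)) := by
    linarith [(abs_le.1 (n1 hK)).1, (abs_le.1 (n2 hK)).2]
  nlinarith [mul_le_mul_of_nonneg_left (le_of_mul_le_mul_left k3 hρ) p.le]

/-- Simpson's bound -/
theorem simp_bd (n : Type) [Fintype n] [DecidableEq n] (C M L : ℝ) (hM : 0 ≤ M) : ∃ R : ℝ,
    ∀ (h a b : ℂ → Mx n) (σ : ℂ → ℝ) (z c e : ℂ) (ρ : ℝ), MetAt h z → AnalyticAt ℂ a z →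
      ContDiffAt ℝ 2 σ z → 0 < σ z → 0 < ρ →
      IsLocalMax (fun x => σ x * nq (h x) (h x) (a x)) z → b z = c • a z → ‖c‖ ^ 2 = σ z * ρ →
      nq (h z) (h z) (hk h b z) ≤ (M * ρ) ^ 2 → -(L * ρ) ≤ lp (fun x => Real.log (σ x)) z →
      ‖e‖ ^ 2 = σ z → (∀ i, ‖(e • a z).charpoly.coeff i‖ ≤ C) →
      σ z * nq (h z) (h z) (a z) ≤ R := by
  obtain ⟨R, hR⟩ := alg n (max C (2 * M + L))
  refine ⟨R, fun h a b σ z c e ρ H ha hσ p hρ hm hb hc hK hL he hC => ?_⟩
  have ph := MetAt.pd H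
  have := hR (h z) (e • a z) ph (fun i => (hC i).trans (le_max_left _ _)) (by
    rw [br_smul, nq_smul, nq_smul, norm_real, Real.norm_of_nonneg (by positivity), he]
    exact (simp_max H ha hσ p hρ hM hm hb hc hK hL).trans (mul_le_mul_of_nonneg_right
      (le_max_right _ _) (mul_nonneg p.le (nq_nonneg ph ph _))))
  rwa [nq_smul, he] at this

end Vale.Agent.P275HK
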