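import Vale.Agent.P275NA.Defs
import Mathlib.Analysis.Matrix.Order
import Mathlib.Analysis.SpecialFunctions.ContinuousFunctionalCalculus.Rpow.Basic

/-!
P275 (helper28): linear algebra of adjoints and Hilbert-Schmidt norms.
-/

set_option linter.all false

open scoped Matrix.Norms.Operator Topology ComplexOrder ComplexConjugate
open Filter Set Matrix Complex
open Vale.Agent.P281Z.Hm (Mx entL entL_apply)
open Vale.Agent.P275NA

noncomputable section

namespace Vale.Agent.P275HK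

variable {l m n : Type} [Fintype l] [DecidableEq l] [Fintype m] [DecidableEq m] [Fintype n]
  [DecidableEq n]

open scoped MatrixOrder in
/-- a positive matrix is `Qᴴ Q` -/
theorem ex_sq {h : Mx n} (hh : h.PosDef) : ∃ Q : Mx n, IsUnit Q.det ∧ h = Qᴴ * Q := by
  obtain ⟨y, hy, e⟩ := CStarAlgebra.isStrictlyPositive_iff_eq_star_mul_self.mp
    hh.isStrictlyPositive
  exact ⟨y, (isUnit_iff_isUnit_det y).1 hy, e⟩

theorem pd_det {h : Mx n} (hh : h.PosDef) : IsUnit h.det := (isUnit_iff_isUnit_det h).1 hh.isUnit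

theorem pd_ne {h : Mx n} (hh : h.PosDef) : h.det ≠ 0 := (pd_det hh).ne_zero

/-- the sum of the squares of the entries -/
def fs (g : Matrix n m ℂ) : ℝ := ∑ i, ∑ j, ‖g i j‖ ^ 2

theorem fs_nonneg (g : Matrix n m ℂ) : 0 ≤ fs g := by unfold fs; positivity

theorem tr_ct_mul (g g' : Matrix n m ℂ) : trace (gᴴ * g') = ∑ i, ∑ j, conj (g i j) * g' i j := by
  simp only [trace, diag_apply, Matrix.mul_apply, conjTranspose_apply, star_def]
  exact Finset.sum_comm

theorem tr_fs (g : Matrix n m ℂ) : trace (gᴴ * g) = (fs g : ℂ) := by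
  rw [tr_ct_mul, fs]
  push_cast
  simp only [conj_mul']

theorem fs_ct (g : Matrix n m ℂ) : fs gᴴ = fs g := by
  simp only [fs, conjTranspose_apply, norm_star]
  exact Finset.sum_comm

theorem fs_zero {g : Matrix n m ℂ} (h : fs g = 0) : g = 0 := by
  rw [← trace_conjTranspose_mul_self_eq_zero_iff, tr_fs, h, ofReal_zero]

theorem fs_smul (c : ℂ) (g : Matrix n m ℂ) : fs (c • g) = ‖c‖ ^ 2 * fs g := by
  simp only [fs, Matrix.smul_apply, smul_eq_mul, norm_mul, mul_pow, Finset.mul_sum]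

theorem cs_sum {ι : Type} (s : Finset ι) (x y : ι → ℂ) :
    ‖∑ i ∈ s, x i * y i‖ ^ 2 ≤ (∑ i ∈ s, ‖x i‖ ^ 2) * ∑ i ∈ s, ‖y i‖ ^ 2 := by
  refine le_trans ?_ (Finset.sum_mul_sq_le_sq_mul_sq s (fun i => ‖x i‖) fun i => ‖y i‖)
  refine pow_le_pow_left₀ (norm_nonneg _) ((norm_sum_le _ _).trans ?_) 2
  simp only [norm_mul, le_refl]

/-- Cauchy-Schwarz -/
theorem cs_fs (g g' : Matrix n m ℂ) : ‖trace (gᴴ * g')‖ ^ 2 ≤ fs g * fs g' := by
  have := cs_sum Finset.univ (fun p : n × m => conj (g p.1 p.2)) fun p => g' p.1 p.2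
  simp only [Fintype.sum_prod_type, RCLike.norm_conj] at this
  rw [tr_ct_mul]
  exact this

theorem fs_mul (g : Matrix n m ℂ) (x : Matrix m l ℂ) : fs (g * x) ≤ fs g * fs x := by
  have e : fs g * fs x = ∑ i, ∑ j, (∑ k, ‖g i k‖ ^ 2) * ∑ k, ‖x k j‖ ^ 2 := by
    rw [fs, fs, Finset.sum_comm (f := fun i j => ‖x i j‖ ^ 2), Finset.sum_mul_sum]
  rw [e, fs]
  exact Finset.sum_le_sum fun i _ => Finset.sum_le_sum fun j _ => cs_sum _ _ _

theorem cont_fs : Continuous (fs : Matrix n m ℂ → ℝ) := by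
  unfold fs
  exact continuous_finset_sum _ fun i _ => continuous_finset_sum _ fun j _ =>
    (entL i j).continuous.norm.pow 2

theorem ent_fs (g : Matrix n m ℂ) (i : n) (j : m) : ‖g i j‖ ^ 2 ≤ fs g :=
  (Finset.single_le_sum (f := fun j => ‖g i j‖ ^ 2) (fun _ _ => by positivity)
    (Finset.mem_univ j)).trans (Finset.single_le_sum (f := fun i => ∑ j, ‖g i j‖ ^ 2)
      (fun _ _ => by positivity) (Finset.mem_univ i))

theorem ent_le (g : Matrix n m ℂ) (i : n) (j : m) : ‖g i j‖ ≤ ‖g‖ := by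
  have : ‖g i j‖₊ ≤ ‖g‖₊ := by
    rw [linfty_opNNNorm_def]
    exact (Finset.single_le_sum (f := fun j => ‖g i j‖₊) (fun _ _ => zero_le) (Finset.mem_univ j)).trans
      (Finset.le_sup (f := fun i => ∑ j, ‖g i j‖₊) (Finset.mem_univ i))
  exact this

/-- comparison with the matrix norm -/
theorem fs_norm : ∃ K : ℝ, 0 < K ∧ ∀ g : Matrix n m ℂ, ‖g‖ ^ 2 ≤ K * fs g ∧ fs g ≤ K * ‖g‖ ^ 2 := by
  set A : ℝ := ∑ i : n, ∑ j : m, ‖Matrix.single i j (1 : ℂ)‖
  set B : ℝ := ∑ i : n, ∑ j : m, 1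
  have hB : 0 ≤ B := by positivity
  refine ⟨A ^ 2 + B + 1, by positivity, fun g => ⟨?_, ?_⟩⟩
  · have h1 : ‖g‖ ≤ A * √(fs g) := by
      conv_lhs => rw [matrix_eq_sum_single g]
      rw [Finset.sum_mul]
      refine (norm_sum_le _ _).trans (Finset.sum_le_sum fun i _ => ?_)
      rw [Finset.sum_mul]
      refine (norm_sum_le _ _).trans (Finset.sum_le_sum fun j _ => ?_)
      rw [show Matrix.single i j (g i j) = g i j • Matrix.single i j (1 : ℂ) by simp [smul_single],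
        norm_smul, mul_comm]
      exact mul_le_mul_of_nonneg_left (Real.le_sqrt_of_sq_le (ent_fs g i j)) (norm_nonneg _)
    have h2 := pow_le_pow_left₀ (norm_nonneg _) h1 2
    rw [mul_pow, Real.sq_sqrt (fs_nonneg g)] at h2
    nlinarith [fs_nonneg g]
  · have h1 : fs g ≤ B * ‖g‖ ^ 2 := by
      rw [fs, Finset.sum_mul]
      refine Finset.sum_le_sum fun i _ => ?_
      rw [Finset.sum_mul]
      refine Finset.sum_le_sum fun j _ => ?_
      rw [one_mul]
      exact pow_le_pow_left₀ (norm_nonneg _) (ent_le g i j) 2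
    nlinarith [sq_nonneg ‖g‖, sq_nonneg A]

section ad
variable {P : Mx m} {Q : Mx n}

theorem ad_sq (hP : IsUnit P.det) (Q : Mx n) (g : Matrix n m ℂ) :
    ad (Pᴴ * P) (Qᴴ * Q) g = P⁻¹ * (Q * g * P⁻¹)ᴴ * Q := by
  rw [ad, Matrix.mul_inv_rev, conjTranspose_mul, conjTranspose_mul, conjTranspose_nonsing_inv]
  simp only [Matrix.mul_assoc]

theorem tr_sq (hP : IsUnit P.det) (Q : Mx n) (g g' : Matrix n m ℂ) :
    trace (ad (Pᴴ * P) (Qᴴ * Q) g * g') = trace ((Q * g * P⁻¹)ᴴ * (Q * g' * P⁻¹)) := by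
  rw [ad_sq hP, Matrix.mul_assoc, Matrix.mul_assoc, trace_mul_comm]
  simp only [Matrix.mul_assoc]

theorem nq_sq (hP : IsUnit P.det) (Q : Mx n) (g : Matrix n m ℂ) :
    nq (Pᴴ * P) (Qᴴ * Q) g = fs (Q * g * P⁻¹) := by rw [nq, tr_sq hP, tr_fs, ofReal_re]

variable {j : Mx l} {k : Mx m} {h : Mx n}

theorem ad_add (k : Mx m) (h : Mx n) (g g' : Matrix n m ℂ) :
    ad k h (g + g') = ad k h g + ad k h g' := by
  simp only [ad, conjTranspose_add, Matrix.mul_add, Matrix.add_mul]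

theorem ad_sub (k : Mx m) (h : Mx n) (g g' : Matrix n m ℂ) :
    ad k h (g - g') = ad k h g - ad k h g' := by
  simp only [ad, conjTranspose_sub, Matrix.mul_sub, Matrix.sub_mul]

theorem ad_neg (k : Mx m) (h : Mx n) (g : Matrix n m ℂ) : ad k h (-g) = -ad k h g := by
  simp only [ad, conjTranspose_neg, Matrix.mul_neg, Matrix.neg_mul]

theorem ad_smul (k : Mx m) (h : Mx n) (c : ℂ) (g : Matrix n m ℂ) :
    ad k h (c • g) = conj c • ad k h g := by
  simp only [ad, conjTranspose_smul, Matrix.mul_smul, Matrix.smul_mul, star_def]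

theorem ad_zero (k : Mx m) (h : Mx n) : ad k h (0 : Matrix n m ℂ) = 0 := by simp [ad]

theorem ad_one (hh : IsUnit h.det) : ad h h 1 = 1 := by
  rw [ad, conjTranspose_one, Matrix.mul_one, nonsing_inv_mul _ hh]

theorem ad_mul (j : Mx l) (hk : IsUnit k.det) (h : Mx n) (g : Matrix n m ℂ) (f : Matrix m l ℂ) :
    ad j h (g * f) = ad j k f * ad k h g := by
  simp only [ad, conjTranspose_mul, Matrix.mul_assoc, mul_nonsing_inv_cancel_left _ _ hk]

theorem ad_ad (hk : k.PosDef) (hh : h.PosDef) (g : Matrix n m ℂ) : ad h k (ad k h g) = g := by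
  simp only [ad, conjTranspose_mul, conjTranspose_conjTranspose, conjTranspose_nonsing_inv,
    hk.isHermitian.eq, hh.isHermitian.eq, Matrix.mul_assoc, nonsing_inv_mul _ (pd_det hk),
    Matrix.mul_one, nonsing_inv_mul_cancel_left _ _ (pd_det hh)]

theorem tr_ad (hk : IsUnit k.det) (X : Mx m) : trace (ad k k X) = conj (trace X) := by
  rw [ad, trace_mul_comm, ← Matrix.mul_assoc, mul_nonsing_inv _ hk, Matrix.one_mul,
    trace_conjTranspose, star_def]

theorem ad_br (hh : h.PosDef) (a : Mx n) : ad h h (br h a) = br h a := by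
  rw [br, ad_sub, ad_mul h (pd_det hh), ad_mul h (pd_det hh), ad_ad hh hh]

theorem br_smul (h : Mx n) (c : ℂ) (a : Mx n) : br h (c • a) = ((‖c‖ ^ 2 : ℝ) : ℂ) • br h a := by
  simp only [br, ad_smul, Matrix.mul_smul, Matrix.smul_mul, smul_smul, smul_sub]
  push_cast
  rw [mul_conj', conj_mul']

theorem tr_br (h a : Mx n) : trace (br h a) = 0 := by
  rw [br, trace_sub, trace_mul_comm, sub_self]

theorem tr_nq (hk : k.PosDef) (hh : h.PosDef) (g : Matrix n m ℂ) :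
    trace (ad k h g * g) = (nq k h g : ℂ) := by
  obtain ⟨P, hP, rfl⟩ := ex_sq hk
  obtain ⟨Q, hQ, rfl⟩ := ex_sq hh
  rw [nq_sq hP, tr_sq hP, tr_fs]

theorem nq_nonneg (hk : k.PosDef) (hh : h.PosDef) (g : Matrix n m ℂ) : 0 ≤ nq k h g := by
  obtain ⟨P, hP, rfl⟩ := ex_sq hk
  obtain ⟨Q, hQ, rfl⟩ := ex_sq hh
  rw [nq_sq hP]
  exact fs_nonneg _

theorem nq_zero (hk : k.PosDef) (hh : h.PosDef) {g : Matrix n m ℂ} (h0 : nq k h g = 0) :
    g = 0 := by
  obtain ⟨P, hP, rfl⟩ := ex_sq hk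
  obtain ⟨Q, hQ, rfl⟩ := ex_sq hh
  rw [nq_sq hP] at h0
  have := congrArg (fun x => Q⁻¹ * x * P) (fs_zero h0)
  simpa only [Matrix.mul_assoc, nonsing_inv_mul _ hP, Matrix.mul_one, Matrix.zero_mul,
    Matrix.mul_zero, nonsing_inv_mul_cancel_left _ _ hQ] using this

theorem nq_pos (hk : k.PosDef) (hh : h.PosDef) {g : Matrix n m ℂ} (h0 : g ≠ 0) : 0 < nq k h g :=
  (nq_nonneg hk hh g).lt_of_ne fun e => h0 (nq_zero hk hh e.symm)

theorem nq_smul (k : Mx m) (h : Mx n) (c : ℂ) (g : Matrix n m ℂ) :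
    nq k h (c • g) = ‖c‖ ^ 2 * nq k h g := by
  rw [nq, nq, ad_smul, Matrix.smul_mul, Matrix.mul_smul, smul_smul, trace_smul, conj_mul',
    smul_eq_mul, ← ofReal_pow, re_ofReal_mul]

theorem nq_neg (k : Mx m) (h : Mx n) (g : Matrix n m ℂ) : nq k h (-g) = nq k h g := by
  rw [nq, nq, ad_neg, Matrix.neg_mul, Matrix.mul_neg, neg_neg]

theorem nq_ad (hk : k.PosDef) (hh : h.PosDef) (g : Matrix n m ℂ) :
    nq h k (ad k h g) = nq k h g := by rw [nq, nq, ad_ad hk hh, trace_mul_comm]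

/-- Cauchy-Schwarz -/
theorem cs_nq (hk : k.PosDef) (hh : h.PosDef) (g g' : Matrix n m ℂ) :
    ‖trace (ad k h g * g')‖ ^ 2 ≤ nq k h g * nq k h g' := by
  obtain ⟨P, hP, rfl⟩ := ex_sq hk
  obtain ⟨Q, hQ, rfl⟩ := ex_sq hh
  rw [nq_sq hP, nq_sq hP, tr_sq hP]
  exact cs_fs _ _

theorem nq_mul (hj : j.PosDef) (hk : k.PosDef) (hh : h.PosDef) (g : Matrix n m ℂ)
    (f : Matrix m l ℂ) : nq j h (g * f) ≤ nq k h g * nq j k f := by
  obtain ⟨O, hO, rfl⟩ := ex_sq hj
  obtain ⟨P, hP, rfl⟩ := ex_sq hk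
  obtain ⟨Q, hQ, rfl⟩ := ex_sq hh
  rw [nq_sq hO, nq_sq hP, nq_sq hO]
  refine le_of_eq_of_le ?_ (fs_mul _ _)
  simp only [Matrix.mul_assoc, nonsing_inv_mul_cancel_left _ _ hP]

theorem tr_le (hk : k.PosDef) (hh : h.PosDef) (g g' : Matrix n m ℂ) {M : ℝ} (hM : 0 ≤ M)
    (hg : nq k h g' ≤ M ^ 2 * nq k h g) : ‖trace (ad k h g * g')‖ ≤ M * nq k h g := by
  have h0 := nq_nonneg hk hh g
  refine abs_le_of_sq_le_sq' ?_ (by positivity) |>.2
  refine (cs_nq hk hh g g').trans ?_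
  nlinarith [mul_le_mul_of_nonneg_left hg h0]

end ad

theorem Btw.pd {c C : ℝ} (hc : 0 < c) {h : Mx n} (hb : Btw c C h) : h.PosDef := by
  have : ((c : ℂ) • (1 : Mx n)).PosDef := PosDef.one.smul (by exact_mod_cast hc)
  simpa using this.posSemidef_add hb.1

theorem btw_fs {c C : ℝ} (hc : 0 < c) {P : Mx n} (hP : IsUnit P.det) (hb : Btw c C (Pᴴ * P)) :
    fs P ≤ C * Fintype.card n ∧ fs P⁻¹ ≤ c⁻¹ * Fintype.card n := by
  constructor
  · have := hb.2.trace_nonneg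
    rw [trace_sub, tr_fs, trace_smul, trace_one, smul_eq_mul, sub_nonneg] at this
    exact_mod_cast this
  · have := (hb.1.conjTranspose_mul_mul_same P⁻¹).trace_nonneg
    rw [Matrix.mul_sub, Matrix.sub_mul, trace_sub, Matrix.mul_smul, Matrix.mul_one, Matrix.smul_mul,
      trace_smul, tr_fs, Matrix.mul_assoc, Matrix.mul_assoc, mul_nonsing_inv _ hP, Matrix.mul_one,
      ← conjTranspose_mul, mul_nonsing_inv _ hP, conjTranspose_one, trace_one, smul_eq_mul,
      sub_nonneg] at this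
    rw [← div_eq_inv_mul, le_div_iff₀' hc]
    exact_mod_cast this

theorem nrm : NRM := by
  intro m n _ _ _ _
  refine ⟨fun c C hc => ?_, fun k h g X Y M hk hh hM => ⟨nq_nonneg hk hh g, nq_zero hk hh, ?_, ?_⟩⟩
  · obtain ⟨K, hK, H⟩ := fs_norm (n := n) (m := m)
    set A : ℝ := |C| * c⁻¹ * Fintype.card m * Fintype.card n + 1
    have hA : 0 < A := by positivity
    refine ⟨K * A, by positivity, fun k h g hk hh => ?_⟩
    obtain ⟨P, hP, rfl⟩ := ex_sq (Btw.pd hc hk)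
    obtain ⟨Q, hQ, rfl⟩ := ex_sq (Btw.pd hc hh)
    obtain ⟨p1, p2⟩ := btw_fs hc hP hk
    obtain ⟨q1, q2⟩ := btw_fs hc hQ hh
    have p1' : fs P ≤ |C| * Fintype.card m :=
      p1.trans (mul_le_mul_of_nonneg_right (le_abs_self C) (by positivity))
    have q1' : fs Q ≤ |C| * Fintype.card n :=
      q1.trans (mul_le_mul_of_nonneg_right (le_abs_self C) (by positivity))
    rw [nq_sq hP]
    have key : ∀ (U : Mx n) (V : Mx m) (x : Matrix n m ℂ), fs U * fs V ≤ A →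
        fs (U * x * V) ≤ A * fs x := fun U V x e =>
      (fs_mul _ _).trans ((mul_le_mul_of_nonneg_right (fs_mul _ _) (fs_nonneg _)).trans
        (by nlinarith [mul_le_mul_of_nonneg_right e (fs_nonneg x)]))
    constructor
    · have e : g = Q⁻¹ * (Q * g * P⁻¹) * P := by
        simp only [Matrix.mul_assoc, nonsing_inv_mul _ hP, Matrix.mul_one,
          nonsing_inv_mul_cancel_left _ _ hQ]
      have := key Q⁻¹ P (Q * g * P⁻¹) (by
        nlinarith [mul_le_mul q2 p1' (fs_nonneg _) (by positivity)])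
      rw [← e] at this
      nlinarith [(H g).1, mul_le_mul_of_nonneg_left this hK.le]
    · have := key Q P⁻¹ g (by nlinarith [mul_le_mul q1' p2 (fs_nonneg _) (by positivity)])
      nlinarith [mul_le_mul_of_nonneg_left (H g).2 hA.le]
  · intro hX
    refine (abs_re_le_norm _).trans ?_
    rw [Matrix.mul_assoc]
    refine tr_le hk hh g _ hM ((nq_mul hk hk hh g X).trans ?_)
    nlinarith [mul_le_mul_of_nonneg_left hX (nq_nonneg hk hh g)]
  · intro hY
    refine (abs_re_le_norm _).trans ?_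
    rw [Matrix.mul_assoc, trace_mul_comm, Matrix.mul_assoc]
    exact tr_le hk hh g _ hM ((nq_mul hk hh hh Y g).trans
      (mul_le_mul_of_nonneg_right hY (nq_nonneg hk hh g)))

theorem normal_nil {b : Mx n} (h1 : b * bᴴ - bᴴ * b = 0) {N : ℕ} (h2 : b ^ N = 0) : fs b = 0 := by
  have hc : Commute bᴴ b := (sub_eq_zero.1 h1).symm
  have := (Matrix.isNilpotent_trace_of_isNilpotent (M := bᴴ * b)
    ⟨N, by rw [hc.mul_pow, h2, Matrix.mul_zero]⟩).eq_zero
  rw [tr_fs] at this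
  exact_mod_cast this

theorem cpt_sph : IsCompact {b : Mx n | fs b = 1} := by
  obtain ⟨K, hK, H⟩ := fs_norm (n := n) (m := n)
  refine Metric.isCompact_of_isClosed_isBounded (isClosed_eq cont_fs continuous_const)
    ((Metric.isBounded_closedBall (x := 0) (r := √K)).subset fun b hb => ?_)
  rw [mem_closedBall_zero_iff]
  exact Real.le_sqrt_of_sq_le (by simpa [show fs b = 1 from hb] using (H b).1)

theorem ex_gap (N : ℕ) : ∃ δ : ℝ, 0 < δ ∧ ∀ b : Mx n, fs b = 1 →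
    δ ≤ fs (b * bᴴ - bᴴ * b) + ‖b ^ N‖ := by
  have hct : Continuous fun b : Mx n => bᴴ := continuous_id.matrix_conjTranspose
  have c1 : Continuous fun b : Mx n => fs (b * bᴴ - bᴴ * b) :=
    cont_fs.comp ((continuous_id.matrix_mul hct).sub (hct.matrix_mul continuous_id))
  have c2 : Continuous fun b : Mx n => ‖b ^ N‖ := (continuous_pow N).norm
  refine cpt_sph.exists_forall_le' (c1.add c2).continuousOn fun b hb => ?_
  refine (add_nonneg (fs_nonneg _) (norm_nonneg _)).lt_of_ne fun e => ?_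
  have := (add_eq_zero_iff_of_nonneg (fs_nonneg _) (norm_nonneg _)).1 e.symm
  have h3 := normal_nil (fs_zero this.1) (norm_eq_zero.1 this.2)
  rw [show fs b = 1 from hb] at h3
  exact one_ne_zero h3

theorem ex_pow (N : ℕ) : ∃ L : ℝ, ∀ b : Mx n, fs b = 1 → ∑ i ∈ Finset.range N, ‖b ^ i‖ ≤ L := by
  have c : Continuous fun b : Mx n => ∑ i ∈ Finset.range N, ‖b ^ i‖ :=
    continuous_finset_sum _ fun i _ => (continuous_pow i).norm
  obtain ⟨L, hL⟩ := cpt_sph.exists_bound_of_continuousOn c.continuousOn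
  exact ⟨L, fun b hb => (le_abs_self _).trans (hL b hb)⟩

theorem cayley (a : Mx n) : a ^ Fintype.card n =
    -∑ i ∈ Finset.range (Fintype.card n), a.charpoly.coeff i • a ^ i := by
  have := a.aeval_self_charpoly
  rw [Polynomial.aeval_eq_sum_range, charpoly_natDegree_eq_dim, Finset.sum_range_succ] at this
  have h1 : a.charpoly.coeff (Fintype.card n) = 1 := by
    have := a.charpoly_monic
    rwa [Polynomial.Monic, Polynomial.leadingCoeff, charpoly_natDegree_eq_dim] at this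
  rw [h1, one_smul] at this
  exact eq_neg_of_add_eq_zero_right this

theorem pow_small {a : Mx n} {C : ℝ} (h1 : ∀ i, ‖a.charpoly.coeff i‖ ≤ C) {s : ℂ} (hs : ‖s‖ ≤ 1) :
    ‖(s • a) ^ Fintype.card n‖ ≤
      C * ‖s‖ * ∑ i ∈ Finset.range (Fintype.card n), ‖(s • a) ^ i‖ := by
  rw [smul_pow, cayley, smul_neg, norm_neg, Finset.smul_sum, Finset.mul_sum]
  refine (norm_sum_le _ _).trans (Finset.sum_le_sum fun i hi => ?_)
  obtain ⟨d, hd⟩ := Nat.exists_eq_add_of_lt (Finset.mem_range.1 hi)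
  rw [smul_pow, hd, smul_smul, show s ^ (i + d + 1) * a.charpoly.coeff i =
    (a.charpoly.coeff i * s * s ^ d) * s ^ i by ring, mul_smul, norm_smul]
  refine mul_le_mul_of_nonneg_right ?_ (norm_nonneg _)
  rw [norm_mul, norm_mul, norm_pow]
  exact (mul_le_of_le_one_right (by positivity) (pow_le_one₀ (norm_nonneg _) hs)).trans
    (mul_le_mul_of_nonneg_right (h1 i) (norm_nonneg _))

theorem alg_one (C : ℝ) : ∃ R : ℝ, ∀ a : Mx n, (∀ i, ‖a.charpoly.coeff i‖ ≤ C) →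
    fs (a * aᴴ - aᴴ * a) ≤ C * fs a → fs a ≤ R := by
  obtain ⟨δ, hδ, hd⟩ := ex_gap (n := n) (Fintype.card n)
  obtain ⟨L, hL⟩ := ex_pow (n := n) (Fintype.card n)
  refine ⟨max 1 ((C * (1 + L) / δ) ^ 2), fun a h1 h2 => ?_⟩
  have hC : 0 ≤ C := (norm_nonneg _).trans (h1 0)
  by_contra hlt
  rw [not_le] at hlt
  have ha1 : 1 < fs a := (le_max_left _ _).trans_lt hlt
  obtain ⟨t, ht1, htt⟩ : ∃ t : ℝ, 1 < t ∧ t ^ 2 = fs a :=
    ⟨√(fs a), Real.lt_sqrt_of_sq_lt (by simpa using ha1), Real.sq_sqrt (fs_nonneg a)⟩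
  have ht0 : 0 < t := one_pos.trans ht1
  have ti : t⁻¹ ≤ 1 := inv_le_one_of_one_le₀ ht1.le
  have nt : ‖((t⁻¹ : ℝ) : ℂ)‖ = t⁻¹ := by rw [norm_real, Real.norm_of_nonneg (by positivity)]
  have hb1 : fs (((t⁻¹ : ℝ) : ℂ) • a) = 1 := by rw [fs_smul, nt, ← htt]; field_simp
  have k0 := hd _ hb1
  have k2 := (pow_small h1 (nt.trans_le ti)).trans
    (mul_le_mul_of_nonneg_left (hL _ hb1) (by positivity))
  simp only [conjTranspose_smul, star_def, conj_ofReal, Matrix.smul_mul, Matrix.mul_smul,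
    ← smul_sub, fs_smul, nt] at k0
  rw [nt] at k2
  have k1 : t⁻¹ ^ 2 * (t⁻¹ ^ 2 * fs (a * aᴴ - aᴴ * a)) ≤ C * t⁻¹ := by
    refine (mul_le_mul_of_nonneg_left (mul_le_mul_of_nonneg_left h2 (by positivity))
      (by positivity)).trans ?_
    rw [← htt, show t⁻¹ ^ 2 * (t⁻¹ ^ 2 * (C * t ^ 2)) = C * t⁻¹ * t⁻¹ by field_simp]
    exact mul_le_of_le_one_right (by positivity) ti
  have k3 : δ ≤ t⁻¹ * (C * (1 + L)) := by linarith
  have k4 : t ≤ C * (1 + L) / δ := by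
    rw [le_div_iff₀ hδ]
    have := mul_le_mul_of_nonneg_left k3 ht0.le
    rwa [mul_inv_cancel_left₀ ht0.ne'] at this
  have := pow_le_pow_left₀ ht0.le k4 2
  rw [htt] at this
  exact absurd ((le_max_right _ _).trans_lt hlt) (not_lt.2 this)

theorem br_sq {Q : Mx n} (hQ : IsUnit Q.det) (a : Mx n) : Q * br (Qᴴ * Q) a * Q⁻¹ =
    Q * a * Q⁻¹ * (Q * a * Q⁻¹)ᴴ - (Q * a * Q⁻¹)ᴴ * (Q * a * Q⁻¹) := by
  rw [br, ad_sq hQ]
  generalize (Q * a * Q⁻¹)ᴴ = s
  simp only [Matrix.mul_sub, Matrix.sub_mul, Matrix.mul_assoc, mul_nonsing_inv _ hQ,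
    Matrix.mul_one, mul_nonsing_inv_cancel_left _ _ hQ]

theorem alg : ALG := by
  intro n _ _ C
  obtain ⟨R, H⟩ := alg_one (n := n) C
  refine ⟨R, fun h a hh h1 h2 => ?_⟩
  obtain ⟨Q, hQ, rfl⟩ := ex_sq hh
  rw [nq_sq hQ, nq_sq hQ, br_sq hQ] at h2
  rw [nq_sq hQ]
  refine H _ (fun i => ?_) h2
  rw [charpoly_mul_comm, ← Matrix.mul_assoc, nonsing_inv_mul _ hQ, Matrix.one_mul]
  exact h1 i

end Vale.Agent.P275HK
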