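import Vale.Agent.P275HK.Inj
import Vale.Agent.P275NA.Apr
import Mathlib.Analysis.Complex.LocallyUniformLimit

/-!
P275 (helper28): convergent connections have bounded characteristic polynomials of the Higgs fields.
-/

set_option linter.all false

open scoped Matrix.Norms.Operator Topology ComplexOrder ComplexConjugate ContDiff
open Filter Set Matrix Complex Metric MeasureTheory
open Vale.Agent.P281Z.Hm
open Vale.Agent.P275NA
open Vale.Agent.P275GC (At)
open Vale.Agent.P275MO (tf)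
open Vale.Agent.P275NU (Con PF Rel BND)

noncomputable section

namespace Vale.Agent.P275HK

variable {C : Type} [TopologicalSpace C] {A : At C} {n : ℕ} {l : Cy A ℂ}
  {g g' : Cy A (Mn n)} {a a' k h u : Fm A (Mn n)} {i j : Fin A.N} {z : ℂ}

theorem cd_tf {N : WithTop ℕ∞} {f : ℂ → Mx (Fin n)} (hf : ContDiffAt ℝ N f z) :
    ContDiffAt ℝ N (fun x => tf (f x)) z :=
  hf.sub ((contDiffAt_const.mul (cd_trace hf)).smul contDiffAt_const)

theorem cq_tf {u : ℕ → ℂ → Mx (Fin n)} {y : Mx (Fin n)} (hu : Cq u z y) :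
    Cq (fun k x => tf (u k x)) z (tf y) :=
  Tendsto.sub hu (Tendsto.smul_const (Tendsto.const_mul _
    (hu.app (T := trace) continuous_id.matrix_trace.continuousAt)) _)

theorem cq_smul {s : ℕ → ℂ → ℂ} {u : ℕ → ℂ → Mx (Fin n)} {c : ℂ} {y : Mx (Fin n)} (hs : Cq s z c)
    (hu : Cq u z y) : Cq (fun j x => s j x • u j x) z (c • y) := Tendsto.smul hs hu

theorem cq_add {u v : ℕ → ℂ → Mx (Fin n)} {y y' : Mx (Fin n)} (hu : Cq u z y) (hv : Cq v z y') :
    Cq (fun j x => u j x + v j x) z (y + y') := Tendsto.add hu hv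

theorem cq_dz {F : Type} [NormedAddCommGroup F] [NormedSpace ℝ F] [NormedSpace ℂ F]
    [IsScalarTower ℝ ℂ F] [CompleteSpace F] {u : ℕ → ℂ → F} {f : ℂ → F} {U : Set ℂ} (hU : IsOpen U)
    (e : TendstoLocallyUniformlyOn u f atTop U) (hu : ∀ k, ∀ x ∈ U, AnalyticAt ℂ (u k) x)
    (hz : z ∈ U) (hf : AnalyticAt ℂ f z) : Cq u z (f z) ∧ Cq (fun k => dz (u k)) z (dz f z) := by
  refine ⟨cq_of hU e hz hf.continuousAt, ?_⟩
  rw [dz_hol hf.differentiableAt]
  exact (cq_of hU (e.deriv (Eventually.of_forall fun k x hx =>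
    (hu k x hx).differentiableAt.differentiableWithinAt) hU) hz hf.deriv.continuousAt).congr' hU hz
      fun k x hx => (dz_hol (hu k x hx).differentiableAt).symm

/-- bounded Hilbert-Schmidt norm bounds the characteristic polynomial -/
theorem coeff_nq (n : ℕ) (B : ℝ) : ∃ M : ℝ, ∀ h a : Mx (Fin n), h.PosDef → nq h h a ≤ B →
    ∀ q, ‖a.charpoly.coeff q‖ ≤ M := by
  obtain ⟨K, hK, H⟩ := fs_norm (n := Fin n) (m := Fin n)
  obtain ⟨M, -, hM⟩ := coeff_bd (n := Fin n) √(K * B)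
  refine ⟨M, fun h a hh hb q => ?_⟩
  obtain ⟨Q, hQ, rfl⟩ := ex_sq hh
  rw [nq_sq hQ] at hb
  have := hM _ (Real.le_sqrt_of_sq_le ((H _).1.trans (mul_le_mul_of_nonneg_left hb hK.le))) q
  rwa [charpoly_mul_comm, ← Matrix.mul_assoc, nonsing_inv_mul _ hQ, Matrix.one_mul] at this

/-- the terms of the canonical metric -/
def tm (A : At C) (g : Cy A (Mn n)) (j i : Fin A.N) (z : ℂ) : Mn n :=
  (A.φ j i z : ℂ) • ((g j i (A.tr i j z))ᴴ * g j i (A.tr i j z))

theorem an_cc (hg : A.Cc g) (hz : z ∈ A.O i j) : AnalyticAt ℂ (fun x => g j i (A.tr i j x)) z :=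
  (hg.an (At.tr_mem hz)).comp (At.an_tr hz)

variable [T2Space C]

theorem cd_φ (hz : z ∈ ball (0 : ℂ) A.R) (i j : Fin A.N) :
    ContDiffAt ℝ ∞ (fun x => (A.φ j i x : ℂ)) z := cd_ofReal ((At.sm_φ j).at hz i)

theorem dz_tm (hg : A.Cc g) (hz : z ∈ A.O i j) : DifferentiableAt ℝ (tm A g j i) z ∧
    dz (tm A g j i) z = dz (fun x => (A.φ j i x : ℂ)) z • ((g j i (A.tr i j z))ᴴ *
      g j i (A.tr i j z)) + (A.φ j i z : ℂ) • ((g j i (A.tr i j z))ᴴ *
        dz (fun x => g j i (A.tr i j x)) z) := by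
  have a := an_cc hg hz
  have d := hol_df a
  have p := (cd_φ hz.1 i j).differentiableAt (by simp)
  refine ⟨p.smul (df_mul (df_ct d) d), ?_⟩
  rw [show tm A g j i = fun z => (A.φ j i z : ℂ) • ((g j i (A.tr i j z))ᴴ * g j i (A.tr i j z))
    from rfl, dz, wd_smul p (df_mul (df_ct d) d), wd_mul (df_ct d) d, wd_ct d,
    wb_hol a.differentiableAt, conjTranspose_zero, Matrix.zero_mul, zero_add]

theorem tm_off (hz : z ∈ ball (0 : ℂ) A.R) (hz' : z ∉ A.O i j) : ∃ U : Set ℂ, IsOpen U ∧ z ∈ U ∧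
    ∀ g : Cy A (Mn n), ∀ x ∈ U, tm A g j i =ᶠ[𝓝 x] fun _ => 0 := by
  obtain ⟨U, h1, h2, h3⟩ := _root_.eventually_nhds_iff.1 (At.ev_φ hz hz')
  exact ⟨U, h2, h3, fun g x hx => eventually_of_mem (h2.mem_nhds hx) fun y hy => by
    rw [tm, h1 y hy, ofReal_zero, zero_smul]⟩

theorem df_tm (hg : A.Cc g) (hz : z ∈ ball (0 : ℂ) A.R) (i j : Fin A.N) :
    DifferentiableAt ℝ (tm A g j i) z := by
  by_cases h : z ∈ A.O i j
  · exact (dz_tm hg h).1
  · obtain ⟨U, -, h1, h2⟩ := tm_off (n := n) hz h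
    exact (differentiableAt_const _).congr_of_eventuallyEq (h2 g z h1)

theorem cq_tm {gs : ℕ → Cy A (Mn n)} (hs : ∀ k, A.Cc (gs k)) (hg : A.Cc g) (e : CvC A gs g)
    (hz : z ∈ ball (0 : ℂ) A.R) (i j : Fin A.N) : Cq (fun k => tm A (gs k) j i) z (tm A g j i z) ∧
      Cq (fun k => dz (tm A (gs k) j i)) z (dz (tm A g j i) z) := by
  by_cases h : z ∈ A.O i j
  · have o := At.O_open (A := A) i j
    obtain ⟨c1, c2⟩ := cq_dz (u := fun k x => gs k j i (A.tr i j x))
      (f := fun x => g j i (A.tr i j x)) o ((e j i).comp (A.tr i j) (fun _ => At.tr_mem)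
        fun _ hw => (At.an_tr hw).continuousAt.continuousWithinAt) (fun k _ hw => an_cc (hs k) hw)
      h (an_cc hg h)
    have p1 := cq_const (cd_φ hz i j).continuousAt
    have p2 := cq_const (cd_dz (N := 0) ((cd_φ hz i j).of_le (by simp))).continuousAt
    have q1 := cq_smul p1 (c1.ct.mmul c1)
    have q2 := cq_add (cq_smul p2 (c1.ct.mmul c1)) (cq_smul p1 (c1.ct.mmul c2))
    refine ⟨q1, ?_⟩
    rw [(dz_tm hg h).2]
    exact q2.congr' o h fun k x hx => (dz_tm (hs k) hx).2.symm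
  · obtain ⟨U, h0, h1, h2⟩ := tm_off (n := n) hz h
    have d : ∀ g : Cy A (Mn n), ∀ x ∈ U, dz (tm A g j i) x = 0 := fun g x hx => by
      rw [dz, wd_congr (h2 g x hx), wd_const]
    rw [(h2 g z h1).self_of_nhds, d g z h1]
    exact ⟨Cq.congr' (cq_const continuousAt_const) h0 h1 fun k x hx =>
      (h2 _ x hx).self_of_nhds.symm, Cq.congr' (cq_const (f := fun _ => (0 : Mn n))
        continuousAt_const) h0 h1 fun k x hx => (d _ x hx).symm⟩

/-- the canonical metrics of convergent cocycles converge in `C¹` -/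
theorem cq_mtM {gs : ℕ → Cy A (Mn n)} (hs : ∀ k, A.Cc (gs k)) (hg : A.Cc g) (e : CvC A gs g)
    (hz : z ∈ ball (0 : ℂ) A.R) (i : Fin A.N) : Cq (fun k => A.mtM (gs k) i) z (A.mtM g i z) ∧
      Cq (fun k => cn (A.mtM (gs k) i)) z (cn (A.mtM g i) z) := by
  have d : ∀ {g : Cy A (Mn n)}, A.Cc g → ∀ x ∈ ball (0 : ℂ) A.R,
      dz (A.mtM g i) x = ∑ j, dz (tm A g j i) x := fun hg x hx =>
    wd_sum (f := fun j => tm A _ j i) _ (fun j _ => df_tm hg hx i j) 1
  have c1 : Cq (fun k => A.mtM (gs k) i) z (A.mtM g i z) :=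
    tendsto_finset_sum _ fun j _ => (cq_tm hs hg e hz i j).1
  have c2 : Cq (fun k => dz (A.mtM (gs k) i)) z (dz (A.mtM g i) z) := by
    rw [d hg z hz]
    exact Cq.congr' (u := fun k x => ∑ j, dz (tm A (gs k) j i) x) (tendsto_finset_sum _
      fun j _ => (cq_tm hs hg e hz i j).2) isOpen_ball hz fun k x hx => (d (hs k) x hx).symm
  exact ⟨c1, (c1.minv (pd_ne (hg.mtM.pos i z hz))).mmul c2⟩

theorem ct_en (hg : A.Cc g) (ha : A.Hl a) : A.Ct fun i z =>
    nq (A.mtM g i z) (A.mtM g i z) (tf (a i z - cn (A.mtM g i) z)) :=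
  ct_nq hg.mtM hg.mtM fun i z hz => (cd_tf ((hol_cd (ha.an hz i)).sub (cd_cn0
    ((hg.mtM.sm.at hz i).of_le (by simp)) (pd_ne (hg.mtM.pos i z hz))))).contDiffWithinAt

/-- the energy of a harmonic bundle against its flat connection -/
theorem eng_rel {G : Fm A (Mn n)} (hn : 0 < n) (c : Con A l 0 g a) (H : A.MtM ∞ g h)
    (r : Rel A 1 g a h G g' a') (hg' : A.Cc g') : A.int (fun i z => nq (h i z) (h i z) (a i z)) ≤
      6 * A.int fun i z => nq (A.mtM g' i z) (A.mtM g' i z) (tf (a' i z - cn (A.mtM g' i) z)) := by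
  have o : (1 : WithTop ℕ∞) ≤ ∞ := by simp
  have m := hg'.mtM
  refine eng (U := fun i z => (G i z)⁻¹) (con_hig hn c) c.tr ⟨H.sm.of_le o, H.pos, H.tr⟩
    ⟨m.sm.of_le o, m.pos, m.tr⟩ (fun i z hz => (cd_inv ((r.sm.at hz i).of_le o)
      (r.ne i z hz)).contDiffWithinAt) (fun i z hz =>
        (isUnit_nonsing_inv_det _ (r.ne i z hz).isUnit).ne_zero) (fun i j z hz => ?_)
    (fun i z hz => ?_) fun i z hz => ⟨(n : ℂ)⁻¹ * trace (cn (h i) z), ?_⟩
  · rw [← mul_nonsing_inv_cancel_right _ (g i j z) (r.ne j _ (At.tr_ball hz)).isUnit, r.tr i j z hz,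
      Matrix.mul_assoc, nonsing_inv_mul_cancel_left _ _ (r.ne i z hz.1).isUnit]
  all_goals
    have p := r.ne i z hz
    have d := r.sm.df (by simp) hz i
  · rw [db, wb_minv d p, show wb 1 (G i) z = _ from eq_neg_of_add_eq_zero_left (r.db i z hz),
      one_smul, Matrix.mul_neg, Matrix.neg_mul, neg_neg, Matrix.mul_assoc,
      mul_nonsing_inv_cancel_right _ _ p.isUnit]
  · have e := eq_sub_of_add_eq (r.dz i z hz)
    rw [one_smul, one_smul] at e
    rw [dz, wd_minv d p, show wd 1 (G i) z = _ from e, tf]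
    simp only [Matrix.mul_sub, Matrix.sub_mul, Matrix.mul_add, Matrix.add_mul, Matrix.mul_assoc,
      Matrix.smul_mul, Matrix.mul_smul, nonsing_inv_mul_cancel_left _ _ p.isUnit,
      mul_nonsing_inv _ p.isUnit, Matrix.mul_one]
    abel

/-- the energy density is subharmonic -/
theorem nq_le_int (ha : Hig A A.d g a) (H : A.MtM ∞ g h) (p : PF A a h) {δ : ℝ}
    (hδ : closedBall z δ ⊆ ball 0 A.R) (i : Fin A.N) :
    nq (h i z) (h i z) (a i z) * volume.real (ball (0 : ℂ) δ) ≤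
      A.int fun i z => nq (h i z) (h i z) (a i z) := by
  have c := ct_nq H H ha.hol.sm
  have s : P284Z.Psh (fun x => nq (h i x) (h i x) (a i x)) (ball 0 A.R) := psh_of fun x hx => by
    have M := met_of H two_le hx i
    obtain ⟨c2, e, -⟩ := homk _ _ (h i) (a i) (h i) (a i) (a i) x M M (ha.hol.an hx i) rfl
    refine ⟨c2, ?_⟩
    rw [e, tf_split (hk _ _ x), p i x hx, zero_add, Matrix.mul_smul, Matrix.mul_smul,
      Matrix.mul_one, Matrix.mul_one, trace_smul, trace_smul, trace_mul_comm (a i x),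
      add_sub_cancel_right]
    exact add_nonneg (nq_nonneg (H.pos i x hx) (H.pos i x hx) _)
      (nq_nonneg (H.pos i x hx) (H.pos i x hx) _)
  rw [← Measure.addHaar_real_ball_center volume z]
  exact (s.le_ball volume (.of_cont (c i)) hδ).trans (At.setInt_le (dn_nq ha H) c.in
    (fun i x hx => nq_nonneg (H.pos i x hx) (H.pos i x hx) _) isOpen_ball.measurableSet
    (ball_subset_closedBall.trans hδ)
    ((c.integ i (isCompact_closedBall z δ) hδ).mono_set ball_subset_closedBall))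

/-- **BND** -/
theorem bnd (A : At C) : BND A := by
  intro n l gs gs' as hs Gs as' g' a' hn H hg' ha' cg ca
  have cv := cvF_of (us := fun k i z => nq (A.mtM (gs' k) i z) (A.mtM (gs' k) i z)
    (tf (as' k i z - cn (A.mtM (gs' k) i) z))) (ct_en hg' ha') fun i z hz => by
      obtain ⟨c1, c2⟩ := cq_mtM (fun k => (H k).2.2.2.2.1) hg' cg hz i
      exact c1.nq (pd_ne (hg'.mtM.pos i z hz)) c1 (cq_tf (Tendsto.sub (ca.cq
        (fun i => (ha' i).continuousOn) hz i) c2))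
  obtain ⟨E, hE⟩ := (cv.int fun k => ct_en (H k).2.2.2.2.1 (H k).2.2.2.2.2).bddAbove_range
  have hδ : 0 < (A.R - 1) / 2 := by linarith [A.hR]
  have hV : 0 < volume.real (ball (0 : ℂ) ((A.R - 1) / 2)) :=
    ENNReal.toReal_pos (measure_ball_pos volume _ hδ).ne' measure_ball_lt_top.ne
  obtain ⟨M, hM⟩ := coeff_nq n (6 * E / volume.real (ball (0 : ℂ) ((A.R - 1) / 2)))
  refine ⟨M, fun k i w hw => ?_⟩
  obtain ⟨c, m, p, r, hk, -⟩ := H k
  have hw := mem_ball_zero_iff.1 hw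
  refine hM _ _ (m.pos i w (At.mem_of_le hw.le)) ((le_div_iff₀ hV).2 ?_)
  refine (nq_le_int (con_hig hn c) m p (closedBall_subset_ball' ?_) i).trans
    ((eng_rel hn c m r hk).trans ?_)
  · rw [dist_zero_right]
    linarith
  · linarith [hE ⟨k, rfl⟩]

end Vale.Agent.P275HK
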