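import Vale.Agent.P275HK.Max
import Vale.Agent.P275HK.Alg2
import Vale.Agent.P275NA.Glob
import Vale.Agent.P275GC.St

/-!
P275 (helper28): uniqueness of Hermitian-Einstein metrics; stable Higgs bundles are simple.
-/

set_option linter.all false

open scoped Matrix.Norms.Operator Topology ComplexOrder ComplexConjugate ContDiff
open Filter Set Matrix Complex Metric
open Vale.Agent.P281Z.Hm
open Vale.Agent.P275NA
open Vale.Agent.P275GC (At)

noncomputable section

namespace Vale.Agent.P275HK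

variable {C : Type} [TopologicalSpace C] {A : At C} {m n : ℕ} {l : Cy A ℂ} {w : Fm A ℝ}
  {g : Cy A (Mn m)} {a k : Fm A (Mn m)} {g' : Cy A (Mn n)} {a' h : Fm A (Mn n)}
  {u : Fm A (Mr n m)} {i : Fin A.N} {z : ℂ}

theorem met_of {N : WithTop ℕ∞} (H : A.MtM N g k) (hN : 2 ≤ N) (hz : z ∈ ball (0 : ℂ) A.R)
    (i : Fin A.N) : MetAt (k i) z :=
  ⟨(H.sm.at hz i).of_le hN, eventually_of_mem (isOpen_ball.mem_nhds hz) (H.pos i)⟩

theorem two_le : (2 : WithTop ℕ∞) ≤ ∞ := WithTop.coe_le_coe.2 (le_top (a := (2 : ℕ∞)))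

theorem cc_ne (hg : A.Cc g) {j : Fin A.N} (hz : z ∈ A.O i j) : (g i j z).det ≠ 0 :=
  left_ne_zero_of_mul_eq_one (by rw [← det_mul, hg.inv hz, det_one])

theorem tr_solve {j : Fin A.N} (hg' : A.Cc g') (hz : z ∈ A.O i j)
    (e : u i z * g i j z = g' i j z * u j (A.tr i j z)) :
    u j (A.tr i j z) = (g' i j z)⁻¹ * u i z * g i j z := by
  rw [Matrix.mul_assoc, e, nonsing_inv_mul_cancel_left _ _ (cc_ne hg' hz).isUnit]

theorem fn_nq {N N' : WithTop ℕ∞} (hg : A.Cc g) (hg' : A.Cc g') (Hk : A.MtM N g k)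
    (Hh : A.MtM N' g' h)
    (hu : ∀ i j, ∀ z ∈ A.O i j, u i z * g i j z = g' i j z * u j (A.tr i j z)) :
    A.Fn fun i z => nq (k i z) (h i z) (u i z) := fun i j z hz => by
  simp only [Hk.tr i j z hz, Hh.tr i j z hz, tr_solve hg' hz (hu i j z hz),
    nq_frame (cc_ne hg hz) (cc_ne hg' hz)]

theorem sa_com (hu : Hom A g a g' a' u) (hz : z ∈ ball (0 : ℂ) A.R) (i : Fin A.N) :
    u i z * sa A w a i z = sa A w a' i z * u i z := by
  rw [sa, sa, Matrix.mul_smul, Matrix.smul_mul, hu.com i z hz]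

/-- the adjoint of a map of bundles is a map of bundles -/
theorem ad_tr {N N' : WithTop ℕ∞} (hg : A.Cc g) (hg' : A.Cc g') (Hk : A.MtM N g k)
    (Hh : A.MtM N' g' h)
    (hu : ∀ i j, ∀ z ∈ A.O i j, u i z * g i j z = g' i j z * u j (A.tr i j z)) (i j : Fin A.N)
    (hz : z ∈ A.O i j) : ad (k i z) (h i z) (u i z) * g' i j z =
      g i j z * ad (k j (A.tr i j z)) (h j (A.tr i j z)) (u j (A.tr i j z)) := by
  rw [Hk.tr i j z hz, Hh.tr i j z hz, tr_solve hg' hz (hu i j z hz),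
    ad_frame (cc_ne hg hz) (cc_ne hg' hz), Matrix.mul_assoc,
    mul_nonsing_inv_cancel_left _ _ (cc_ne hg hz).isUnit]

variable [T2Space C]

/-- maps between Hermitian-Einstein bundles of the same slope are parallel -/
theorem par_of_he {c : ℝ} (hw : Tw A l w) (hg : A.Cc g) (hg' : A.Cc g') (Hk : A.MtM ∞ g k)
    (Hh : A.MtM ∞ g' h) (ek : HE A w a k c) (eh : HE A w a' h c) (hu : Hom A g a g' a' u)
    (hz : z ∈ ball (0 : ℂ) A.R) (i : Fin A.N) : dH (k i) (h i) (u i) z = 0 ∧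
      ad (h i z) (h i z) (a' i z) * u i z = u i z * ad (k i z) (k i z) (a i z) := by
  have fn := fn_nq hg hg' Hk Hh hu.tr
  have sm : A.Sm ∞ fun i z => nq (k i z) (h i z) (u i z) := fun i z hz =>
    (cd_nq (Hk.sm.at hz i) (pd_ne (Hk.pos i z hz)) (Hh.sm.at hz i)
      (hol_cd (hu.hol.an hz i))).contDiffWithinAt
  have e : ∀ i, ∀ z ∈ ball (0 : ℂ) A.R, lp (fun x => nq (k i x) (h i x) (u i x)) z =
      nq (k i z) (h i z) (dH (k i) (h i) (u i) z) + nq (k i z) (h i z)
        (ad (h i z) (h i z) (sa A w a' i z) * u i z - u i z * ad (k i z) (k i z) (sa A w a i z)) :=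
    fun i z hz => by
      have := (homk _ _ (k i) (sa A w a i) (h i) (sa A w a' i) (u i) z (met_of Hk two_le hz i)
        (met_of Hh two_le hz i) (hu.hol.an hz i) (sa_com hu hz i)).2.1
      rw [this, ← HK, ← HK, ek i z hz, eh i z hz, Matrix.mul_smul, Matrix.mul_smul, Matrix.mul_one,
        Matrix.mul_one, trace_smul, trace_smul, trace_mul_comm (u i z), dH]
      ring
  have nn := fun i z hz X => nq_nonneg (g := X) (Hk.pos i z hz) (Hh.pos i z hz)
  have e0 := (fn.dn_lp (sm.of_le two_le)).eq_zero (sm.lp (m := 0) (by simpa [one_add_one_eq_two] using two_le)).ct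
    (fun i z hz => by
      rw [e i z (At.mem_of_le hz.le)]
      exact add_nonneg (nn i z (At.mem_of_le hz.le) _) (nn i z (At.mem_of_le hz.le) _))
    (fn.int_lp (sm.of_le two_le)) i hz
  rw [e i z hz, add_eq_zero_iff_of_nonneg (nn i z hz _) (nn i z hz _)] at e0
  refine ⟨nq_zero (Hk.pos i z hz) (Hh.pos i z hz) e0.1, ?_⟩
  have := nq_zero (Hk.pos i z hz) (Hh.pos i z hz) e0.2
  rw [sa, sa, ad_smul, ad_smul, Matrix.smul_mul, Matrix.mul_smul, ← smul_sub, smul_eq_zero,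
    conj_ofReal, ofReal_eq_zero, sub_eq_zero] at this
  exact this.resolve_left (Real.sqrt_pos.2 (hw.pos i z hz)).ne'

/-- the adjoint of such a map is a holomorphic map of Higgs bundles -/
theorem hom_ad {c : ℝ} (hw : Tw A l w) (hg : A.Cc g) (hg' : A.Cc g') (Hk : A.MtM ∞ g k)
    (Hh : A.MtM ∞ g' h) (ek : HE A w a k c) (eh : HE A w a' h c) (hu : Hom A g a g' a' u) :
    Hom A g' a' g a fun i z => ad (k i z) (h i z) (u i z) where
  hol := At.hl_of_db (fun i z hz => (cd_ad ((Hk.sm.at hz i).of_le (by exact_mod_cast le_top))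
      (pd_ne (Hk.pos i z hz)) ((Hh.sm.at hz i).of_le (by exact_mod_cast le_top))
      (hol_cd (hu.hol.an hz i))).contDiffWithinAt) fun i z hz => by
    have Mk := met_of Hk two_le hz i
    have Mh := met_of Hh two_le hz i
    rw [db_ad (MetAt.df Mk) Mk.pos (MetAt.df Mh) Mh.pos (hol_df (hu.hol.an hz i)), ← dH,
      (par_of_he hw hg hg' Hk Hh ek eh hu hz i).1, ad_zero]
  tr i j z hz := ad_tr hg hg' Hk Hh hu.tr i j hz
  com i z hz := by
    have pk := Hk.pos i z hz
    have ph := Hh.pos i z hz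
    have := congrArg (ad (k i z) (h i z)) (par_of_he hw hg hg' Hk Hh ek eh hu hz i).2
    rwa [ad_mul _ (pd_det ph), ad_mul _ (pd_det pk), ad_ad ph ph, ad_ad pk pk] at this

omit [T2Space C] in
theorem Hom.comp {p : ℕ} {g'' : Cy A (Mn p)} {a'' : Fm A (Mn p)} {v : Fm A (Mr p n)}
    (hv : Hom A g' a' g'' a'' v) (hu : Hom A g a g' a' u) :
    Hom A g a g'' a'' fun i z => v i z * u i z where
  hol i z hz := (an_mul (hv.hol.an hz i) (hu.hol.an hz i)).differentiableAt.differentiableWithinAt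
  tr i j z hz := by
    rw [Matrix.mul_assoc, hu.tr i j z hz, ← Matrix.mul_assoc, hv.tr i j z hz, Matrix.mul_assoc]
  com i z hz := by
    rw [Matrix.mul_assoc, hu.com i z hz, ← Matrix.mul_assoc, hv.com i z hz, Matrix.mul_assoc]

omit [T2Space C] in
theorem Hom.sub_smul {φ : Fm A (Mn m)} (hφ : Hom A g a g a φ) (μ : ℂ) :
    Hom A g a g a fun i z => φ i z - μ • 1 where
  hol i := (hφ.hol i).sub (differentiableOn_const _)
  tr i j z hz := by
    rw [Matrix.sub_mul, Matrix.mul_sub, hφ.tr i j z hz, Matrix.smul_mul, Matrix.mul_smul,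
      Matrix.one_mul, Matrix.mul_one]
  com i z hz := by
    rw [Matrix.sub_mul, Matrix.mul_sub, hφ.com i z hz, Matrix.smul_mul, Matrix.mul_smul,
      Matrix.one_mul, Matrix.mul_one]

variable [ConnectedSpace C]

/-- a map from a stable bundle to a Hermitian-Einstein bundle of the same slope vanishes or is
generically injective -/
theorem zero_or_inj (hK : KEY A) (hw : Tw A l w) (hg : Hig A l g a) (hg' : Hig A l g' a')
    (hs : Stab A g a) (Hh : A.MtM ∞ g' h) (eh : HE A w a' h (ec A g)) (hu : Hom A g a g' a' u) :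
    (∀ i, ∀ z ∈ ball (0 : ℂ) A.R, u i z = 0) ∨
      ∀ i, ∀ z ∈ ball (0 : ℂ) A.R, ∀ᶠ x in 𝓝[≠] z, (u i x).rank = m := by
  obtain ⟨r, s, S, e, h1, h2, h3, h4⟩ := hK m n l w g a g' a' h u hw hg hg' Hh hu
  rcases Nat.eq_zero_or_pos s with rfl | s0
  · exact Or.inr fun i z hz => e ▸ (h3 i z hz).2
  rcases Nat.eq_zero_or_pos r with rfl | r0
  · refine Or.inl fun i z hz => ?_
    have c := (hu.hol.an hz i).continuousAt.tendsto.mono_left (nhdsWithin_le_nhds (s := {z}ᶜ))
    exact tendsto_nhds_unique c (tendsto_const_nhds.congr' ((h3 i z hz).2.mono fun x hx =>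
      (zero_of_rank hx).symm))
  exfalso
  have k1 := hs s S s0 (by omega) h1 h2
  have k2 := h4 (fun i z => r * ec A g * A.ρ i z)
    (fun i => continuousOn_const.mul (At.sm_ρ.ct i)) (fun i z hz t ht _ => by
      rw [eh i z hz, Matrix.mul_smul, Matrix.mul_one, trace_smul, tr_pr (Hh.pos i z hz) ht,
        smul_eq_mul, re_ofReal_mul, Fintype.card_fin, natCast_re]
      exact le_of_eq (by ring))
  have v : 0 < A.int A.ρ := At.vol_pos
  have m0 : (0 : ℝ) < m := by exact_mod_cast (by omega : 0 < m)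
  rw [At.int_mul, ec, show Real.pi⁻¹ * (r * (Real.pi * A.degM g / (m * A.int A.ρ)) * A.int A.ρ) =
    r * A.degM g / m by field_simp, le_div_iff₀ m0] at k2
  have : (m : ℝ) = r + s := by exact_mod_cast e.symm
  rw [this] at k1 k2
  nlinarith

theorem simple (hK : KEY A) (hw : Tw A l w) (hg : Hig A l g a) (hs : Stab A g a)
    (Hk : A.MtM ∞ g k) (ek : HE A w a k (ec A g)) {φ : Fm A (Mn m)} (hφ : Hom A g a g a φ) :
    ∃ μ : ℂ, ∀ i, ∀ z ∈ ball (0 : ℂ) A.R, φ i z = μ • 1 := by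
  rcases Nat.eq_zero_or_pos m with rfl | m0
  · exact ⟨0, fun i z _ => Subsingleton.elim _ _⟩
  have : Nonempty (Fin m) := ⟨⟨0, m0⟩⟩
  obtain ⟨i₀, -, b⟩ := A.cov (Classical.arbitrary C)
  have hz := At.mem_of_le (A := A) b.le
  obtain ⟨μ, hμ⟩ := ex_eig (φ i₀ (A.e i₀ (Classical.arbitrary C)))
  have H := Hom.sub_smul hφ μ
  refine ⟨μ, fun i z hz' => sub_eq_zero.1 ?_⟩
  rcases zero_or_inj hK hw hg hg hs Hk ek H with h0 | h0
  · exact h0 i z hz'
  exfalso
  have fn : A.Fn fun i z => (φ i z - μ • 1).det := fun i j z hz => by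
    have := congrArg det (H.tr i j z hz)
    rw [det_mul, det_mul, mul_comm] at this
    exact mul_left_cancel₀ (cc_ne hg.cc hz) this
  obtain ⟨x, h1, h2⟩ := ((h0 i₀ _ hz).and
    (mem_nhdsWithin_of_mem_nhds (isOpen_ball.mem_nhds hz))).exists
  refine det_of_rank (h1.trans (Fintype.card_fin m).symm) ((fn.hol_const1 (fun i z hz =>
    (an_det (H.hol.an hz i)).differentiableAt.differentiableWithinAt) hz i₀ i₀ h2).trans hμ)

theorem uni (hK : KEY A) (hC : CW A) : UNI A := by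
  intro m n l w g a k c hw hg hs Hk ek
  rcases Nat.eq_zero_or_pos m with rfl | m0
  · exact ⟨fun φ _ => ⟨0, fun i z _ => Subsingleton.elim _ _⟩,
      fun _ _ _ _ _ _ _ _ => ⟨0, le_rfl, fun i z _ => Subsingleton.elim _ _⟩⟩
  obtain rfl := (hC m l w g a k c m0 hw hg Hk ek).1
  refine ⟨fun φ => simple hK hw hg hs Hk ek, fun g' a' h u hg' Hh eh hu => ?_⟩
  obtain ⟨μ, hμ⟩ := simple hK hw hg hs Hk ek
    (Hom.comp (hom_ad hw hg.cc hg'.cc Hk Hh ek eh hu) hu)
  obtain ⟨i₀, -, b⟩ := A.cov (Classical.arbitrary C)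
  have hz := At.mem_of_le (A := A) b.le
  have e := congrArg trace (hμ i₀ _ hz)
  rw [tr_nq (Hk.pos i₀ _ hz) (Hh.pos i₀ _ hz), trace_smul, trace_one, smul_eq_mul,
    Fintype.card_fin] at e
  have m1 : (m : ℂ) ≠ 0 := by exact_mod_cast m0.ne'
  refine ⟨_, div_nonneg (nq_nonneg (Hk.pos i₀ _ hz) (Hh.pos i₀ _ hz)
    (u i₀ (A.e i₀ (Classical.arbitrary C)))) (Nat.cast_nonneg m), fun i z hz => ?_⟩
  have := congrArg (k i z * ·) (hμ i z hz)
  simp only [ad, Matrix.mul_assoc, mul_nonsing_inv_cancel_left _ _ (pd_det (Hk.pos i z hz)),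
    Matrix.mul_smul, Matrix.mul_one] at this
  rw [Matrix.mul_assoc, this, ofReal_div, e, ofReal_natCast, mul_div_cancel_right₀ _ m1]

end Vale.Agent.P275HK
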