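import Vale.Agent.P275HK.EngA
import Vale.Agent.P275HK.Uni
import Vale.Agent.P275MO.Props

/-!
P275 (helper28): the energy estimate, bounds for the characteristic polynomial.
-/

set_option linter.all false

open scoped Matrix.Norms.Operator Topology ComplexOrder ComplexConjugate ContDiff
open Filter Set Matrix Complex Metric MeasureTheory
open Vale.Agent.P281Z.Hm
open Vale.Agent.P275NA
open Vale.Agent.P275GC (At)
open Vale.Agent.P275MO (tf)

noncomputable section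

namespace Vale.Agent.P275HK

variable {C : Type} [TopologicalSpace C] {A : At C} {n : ℕ} {l : Cy A ℂ}
  {g : Cy A (Mn n)} {a k h : Fm A (Mn n)} {i j : Fin A.N} {z : ℂ}

theorem hig_solve (ha : Hig A l g a) (hz : z ∈ A.O i j) :
    l i j z • a j (A.tr i j z) = (g i j z)⁻¹ * a i z * g i j z := by
  rw [Matrix.mul_assoc, ha.tr i j z hz, Matrix.mul_smul,
    nonsing_inv_mul_cancel_left _ _ (cc_ne ha.cc hz).isUnit]

theorem dn_nq {N : WithTop ℕ∞} (ha : Hig A A.d g a) (Hh : A.MtM N g h) :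
    A.Dn fun i z => nq (h i z) (h i z) (a i z) := fun i j z hz => by
  rw [smul_eq_mul, normSq_eq_norm_sq, ← nq_smul, hig_solve ha hz, Hh.tr i j z hz,
    nq_frame (cc_ne ha.cc hz) (cc_ne ha.cc hz)]

theorem ct_nq {m : ℕ} {N N' : WithTop ℕ∞} {g' : Cy A (Mn m)} {h : Fm A (Mn m)} {u : Fm A (Mr m n)}
    (Hk : A.MtM N g k) (Hh : A.MtM N' g' h) (hu : A.Sm 0 u) :
    A.Ct fun i z => nq (k i z) (h i z) (u i z) := fun i z hz =>
  (cd_nq ((Hk.sm.at hz i).of_le zero_le) (pd_ne (Hk.pos i z hz)) ((Hh.sm.at hz i).of_le zero_le)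
    (hu.at hz i)).continuousAt.continuousWithinAt

theorem cd_cn0 {h : ℂ → Mx (Fin n)} (hh : ContDiffAt ℝ 1 h z) (h0 : (h z).det ≠ 0) :
    ContDiffAt ℝ 0 (cn h) z :=
  cd_mul (cd_inv (hh.of_le zero_le) h0) (cd_dz (N := 0) (by rwa [zero_add]))

theorem sm_ps (ha : A.Hl a) (Hh : A.MtM 1 g h) (Hk : A.MtM 1 g k) :
    A.Sm 0 fun i => ps (k i) (h i) (a i) := fun i z hz => by
  have h1 := Hh.sm.at hz i
  have k1 := Hk.sm.at hz i
  have h0 := pd_ne (Hh.pos i z hz)
  have k0 := pd_ne (Hk.pos i z hz)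
  have a0 : ContDiffAt ℝ 0 (a i) z := hol_cd (ha.an hz i)
  exact ((((cd_cn0 h1 h0).add a0).add (cd_ad (k1.of_le zero_le) k0 (k1.of_le zero_le)
    (cd_ad (h1.of_le zero_le) h0 (h1.of_le zero_le) a0))).sub (cd_cn0 k1 k0)).contDiffWithinAt

variable [T2Space C]

/-- harmonic metrics minimise the energy, up to a constant -/
theorem eng0 (ha : Hig A A.d g a) (Hh : A.MtM 1 g h) (Hk : A.MtM 1 g k) :
    A.int (fun i z => nq (h i z) (h i z) (a i z)) ≤
      6 * A.int fun i z => nq (k i z) (k i z) (ps (k i) (h i) (a i) z) := by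
  have one : A.Sm 0 fun _ _ => (1 : Mn n) := fun _ => contDiffOn_const
  obtain ⟨B1, p1, b1⟩ := (ct_nq Hk Hh one).bdd A.hR
  obtain ⟨B2, p2, b2⟩ := (ct_nq Hh Hk one).bdd A.hR
  obtain ⟨N, hN⟩ := pow_unbounded_of_one_lt (4 * (B1 + B2 + 1) ^ 2) (one_lt_two (α := ℝ))
  have hB : 0 < B1 + B2 + 1 := by positivity
  set T : ℕ → ℝ := fun m => 2 ^ m * (2 * (B1 + B2 + 1))⁻¹
  have hT : ∀ m, 0 < T m := fun m => by positivity
  set u : ℕ → Fm A ℂ := fun m i x => trace (ad (h i x) (h i x) (a i x) * sT (k i x) (h i x) (T m))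
  have sm : ∀ m, A.Sm 1 (u m) := fun m i z hz => (cd_trace (cd_mul (cd_ad (Hh.sm.at hz i)
    (pd_ne (Hh.pos i z hz)) (Hh.sm.at hz i) (hol_cd (ha.hol.an hz i))) (cd_sT (Hk.sm.at hz i)
    (Hh.sm.at hz i) (Hk.pos i z hz) (Hh.pos i z hz) (hT m)))).contDiffWithinAt
  have f01 : ∀ m, A.F01 (u m) := fun m i j z hz => by
    have p := cc_ne ha.cc hz
    simp only [u]
    rw [← trace_smul, ← Matrix.smul_mul, ← ad_smul, hig_solve ha hz, Hh.tr i j z hz,
      Hk.tr i j z hz, ad_frame p p, sT_frame p, ← tr_conj p (ad _ _ (a i z) * _)]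
    simp only [Matrix.mul_assoc, mul_nonsing_inv_cancel_left _ _ p.isUnit]
  have ct : ∀ m, A.Ct fun i => dz (u m i) := fun m => ((sm m).dz (m := 0) (by simp)).ct
  have cr : ∀ m, A.In fun i z => -(T m * (dz (u m i) z).re) := fun m => At.Ct.in fun i =>
    (continuousOn_const.mul (continuous_re.comp_continuousOn (ct m i))).neg
  have i0 : A.int (fun i z => ∑ m ∈ Finset.range N, -(T m * (dz (u m i) z).re)) = 0 := by
    rw [At.int_sum _ fun m _ => cr m]
    refine Finset.sum_eq_zero fun m _ => ?_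
    rw [At.int_neg, At.int_mul, At.int_re (ct m).in, (f01 m).int_dz (sm m), zero_re, mul_zero,
      neg_zero]
  have c1 := ct_nq Hh Hh ha.hol.sm
  have c2 := ct_nq Hk Hk (sm_ps ha.hol Hh Hk)
  have c3 : A.Ct fun i z => 6⁻¹ * nq (h i z) (h i z) (a i z) := fun i =>
    continuousOn_const.mul (c1 i)
  have := At.int_mono (c3.in.sub c2.in) (At.In.sum _ fun m _ => cr m) fun i z hz => by
    have hz' := At.mem_of_le (A := A) hz.le
    have := qT_sum (Hk.pos i z hz') (Hh.pos i z hz') (a i z) (ps (k i) (h i) (a i) z) hB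
      (by linarith [(le_abs_self _).trans (b1 i z hz.le)])
      (by linarith [(le_abs_self _).trans (b2 i z hz.le)]) N hN.le
    rw [← div_eq_inv_mul]
    refine this.trans_eq (Finset.sum_congr rfl fun m _ => ?_)
    rw [dz_test (Hk.sm.at hz' i) (Hh.sm.at hz' i) (Hk.pos i z hz') (Hh.pos i z hz')
      (ha.hol.an hz' i) (hT m), mul_neg, neg_neg]
  rw [i0, At.int_sub c3.in c2.in, At.int_mul] at this
  linarith

omit [T2Space C] in
theorem ad_rsmul {k : Mx (Fin n)} {c : ℂ} (hc : c ≠ 0) (hk : k.det ≠ 0) (X : Mx (Fin n)) :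
    ad (c • k) (c • k) X = ad k k X := by
  have e : (c • k)⁻¹ = c⁻¹ • k⁻¹ := inv_eq_left_inv (by
    rw [Matrix.smul_mul, Matrix.mul_smul, smul_smul, inv_mul_cancel₀ hc, one_smul,
      nonsing_inv_mul _ hk.isUnit])
  rw [ad, ad, e, Matrix.smul_mul, Matrix.smul_mul, Matrix.mul_smul, smul_smul, inv_mul_cancel₀ hc,
    one_smul]

omit [T2Space C] in
theorem dz_exp {v : ℂ → ℝ} (hv : DifferentiableAt ℝ v z) : dz (fun x => (Real.exp (v x) : ℂ)) z =
    Real.exp (v z) * dz (fun x => (v x : ℂ)) z := by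
  have := wd_log (a := fun x => Real.exp (v x)) hv.exp (Real.exp_pos _).ne' (1 : ℂ)
  simp only [Real.log_exp] at this
  rw [dz, dz, this, mul_inv_cancel_left₀ (ofReal_ne_zero.2 (Real.exp_pos _).ne')]

omit [T2Space C] in
theorem cn_exp {v : ℂ → ℝ} {k : ℂ → Mx (Fin n)} (hv : DifferentiableAt ℝ v z)
    (hk : DifferentiableAt ℝ k z) (h0 : (k z).det ≠ 0) :
    cn (fun x => (Real.exp (v x) : ℂ) • k x) z = cn k z + dz (fun x => (v x : ℂ)) z • 1 := by
  have hc : (Real.exp (v z) : ℂ) ≠ 0 := ofReal_ne_zero.2 (Real.exp_pos _).ne'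
  have e : ((Real.exp (v z) : ℂ) • k z)⁻¹ = (Real.exp (v z) : ℂ)⁻¹ • (k z)⁻¹ := inv_eq_left_inv (by
    rw [Matrix.smul_mul, Matrix.mul_smul, smul_smul, inv_mul_cancel₀ hc, one_smul,
      nonsing_inv_mul _ h0.isUnit])
  rw [cn, cn, e, dz, wd_smul (a := fun x => (Real.exp (v x) : ℂ))
    (ofRealCLM.differentiableAt.comp z hv.exp) hk, ← dz, dz_exp hv, Matrix.smul_mul, Matrix.mul_add,
    Matrix.mul_smul, Matrix.mul_smul, smul_add, smul_smul, smul_smul, inv_mul_cancel_left₀ hc,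
    inv_mul_cancel₀ hc, one_smul, nonsing_inv_mul _ h0.isUnit, add_comm]

omit [T2Space C] in
theorem dz_logdet1 {h : ℂ → Mx (Fin n)} (hd : ContDiffAt ℝ 1 h z)
    (hp : ∀ᶠ x in 𝓝 z, (h x).PosDef) :
    dz (fun x => (Real.log (h x).det.re : ℂ)) z = trace (cn h z) := by
  have p := hp.self_of_nhds
  rw [dz, wd_log ((cd_re (cd_det hd)).differentiableAt one_ne_zero) (det_re p).2.ne',
    wd_congr (g := fun x => (h x).det) (hp.mono fun x hx => (det_re hx).1),
    wd_det (hd.differentiableAt one_ne_zero) (pd_ne p), (det_re p).1,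
    inv_mul_cancel_left₀ (pd_ne p), cn]

omit [T2Space C] in
theorem logdet_tr {N : WithTop ℕ∞} (hg : A.Cc g) (H : A.MtM N g h) (hz : z ∈ A.O i j) :
    Real.log (h j (A.tr i j z)).det.re =
      Real.log (normSq (g i j z).det) + Real.log (h i z).det.re := by
  rw [H.tr i j z hz, det_mul, det_mul, det_conjTranspose, mul_right_comm, star_def,
    ← normSq_eq_conj_mul_self, re_ofReal_mul,
    Real.log_mul (normSq_pos.2 (cc_ne hg hz)).ne' (det_re (H.pos i z hz.1)).2.ne']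

/-- the energy estimate with the trace free part -/
theorem eng1 (ha : Hig A A.d g a) (h0 : ∀ i, ∀ z ∈ ball (0 : ℂ) A.R, trace (a i z) = 0)
    (Hh : A.MtM 1 g h) (Hk : A.MtM 1 g k) : A.int (fun i z => nq (h i z) (h i z) (a i z)) ≤
      6 * A.int fun i z => nq (k i z) (k i z) (tf (ps (k i) (h i) (a i) z)) := by
  set v : Fm A ℝ := fun i z => (n : ℝ)⁻¹ * (Real.log (h i z).det.re - Real.log (k i z).det.re)
  have cv : ∀ i, ∀ z ∈ ball (0 : ℂ) A.R, ContDiffAt ℝ 1 (v i) z := fun i z hz =>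
    contDiffAt_const.mul (((cd_re (cd_det (Hh.sm.at hz i))).log (det_re (Hh.pos i z hz)).2.ne').sub
      ((cd_re (cd_det (Hk.sm.at hz i))).log (det_re (Hk.pos i z hz)).2.ne'))
  have Hk' : A.MtM 1 g fun i z => (Real.exp (v i z) : ℂ) • k i z :=
    ⟨fun i z hz => ((cd_ofReal (cv i z hz).exp).smul (Hk.sm.at hz i)).contDiffWithinAt,
      fun i z hz => (Hk.pos i z hz).smul (by exact_mod_cast Real.exp_pos _), fun i j z hz => by
        simp only [v]
        rw [logdet_tr ha.cc Hh hz, logdet_tr ha.cc Hk hz, add_sub_add_left_eq_sub, Hk.tr i j z hz,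
          Matrix.mul_smul, Matrix.smul_mul]⟩
  refine (eng0 ha Hh Hk').trans_eq (congrArg _ (At.int_congr' fun i z hz => ?_))
  have k0 := pd_ne (Hk.pos i z hz)
  have hc : (Real.exp (v i z) : ℂ) ≠ 0 := ofReal_ne_zero.2 (Real.exp_pos _).ne'
  have e1 := fun {h : Fm A (Mn n)} (H : A.MtM 1 g h) => dz_logdet1 (H.sm.at hz i)
    (eventually_of_mem (isOpen_ball.mem_nhds hz) (H.pos i))
  have d1 := fun {h : Fm A (Mn n)} (H : A.MtM 1 g h) => (cd_ofReal
    ((cd_re (cd_det (H.sm.at hz i))).log (det_re (H.pos i z hz)).2.ne')).differentiableAt one_ne_zero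
  have e2 : dz (fun x => (v i x : ℂ)) z = (n : ℂ)⁻¹ * trace (ps (k i) (h i) (a i) z) := by
    simp only [v, ofReal_mul, ofReal_sub, ofReal_inv, ofReal_natCast]
    simp only [← smul_eq_mul]
    rw [dz, wd_const_smul _ ((d1 Hh).fun_sub (d1 Hk)),
      wd_sub (d1 Hh) (d1 Hk), ← dz, ← dz, e1 Hh, e1 Hk, ps, trace_sub, trace_add, trace_add,
      tr_ad k0.isUnit, tr_ad (pd_det (Hh.pos i z hz)), h0 i z hz]
    simp
  rw [nq, nq, ad_rsmul hc k0, show ps (fun z => (Real.exp (v i z) : ℂ) • k i z) (h i) (a i) z =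
    tf (ps (k i) (h i) (a i) z) by
      rw [tf, ← e2, ps, ps, ad_rsmul hc k0, cn_exp ((cv i z hz).differentiableAt one_ne_zero)
        ((Hk.sm.at hz i).differentiableAt one_ne_zero) k0, sub_add_eq_sub_sub]]

omit [T2Space C] in
theorem tf_conj {P : Mx (Fin n)} (hP : P.det ≠ 0) (X : Mx (Fin n)) :
    tf (P⁻¹ * X * P) = P⁻¹ * tf X * P := by
  rw [tf, tf, tr_conj hP, Matrix.mul_sub, Matrix.sub_mul, Matrix.mul_smul, Matrix.smul_mul,
    Matrix.mul_one, nonsing_inv_mul _ hP.isUnit]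

omit [T2Space C] in
theorem tf_add_smul (X : Mx (Fin n)) (c : ℂ) : tf (X + c • 1) = tf X := by
  rcases Nat.eq_zero_or_pos n with rfl | hn
  · exact Subsingleton.elim _ _
  have : (n : ℂ) ≠ 0 := by exact_mod_cast hn.ne'
  rw [tf, tf, trace_add, trace_smul, trace_one, Fintype.card_fin, smul_eq_mul, mul_add,
    show (n : ℂ)⁻¹ * (c * n) = c by field_simp, add_smul, add_sub_add_right_eq_sub]

omit [T2Space C] in
theorem ps_gauge {K U h a : ℂ → Mx (Fin n)} {B : Mx (Fin n)} {τ : ℂ} (hK : DifferentiableAt ℝ K z)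
    (K0 : (K z).det ≠ 0) (hU : DifferentiableAt ℝ U z) (U0 : (U z).det ≠ 0)
    (e1 : db U z = U z * ad (h z) (h z) (a z))
    (e2 : dz U z + B * U z + τ • U z = U z * (cn h z + a z)) :
    ps (fun x => (U x)ᴴ * K x * U x) h a z = (U z)⁻¹ * (B - cn K z + τ • 1) * U z := by
  have e3 : cn h z + a z = (U z)⁻¹ * (dz U z + B * U z + τ • U z) := by
    rw [e2, nonsing_inv_mul_cancel_left _ _ U0.isUnit]
  rw [ps, e3, cn, cn, dz, dz, wd_mul (df_mul (df_ct hU) hK) hU, wd_mul (df_ct hU) hK, wd_ct hU,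
    ← db, e1, conjTranspose_mul, ad, Matrix.mul_inv_rev, Matrix.mul_inv_rev]
  simp only [Matrix.mul_add, Matrix.add_mul, Matrix.mul_sub, Matrix.sub_mul, Matrix.mul_assoc,
    nonsing_inv_mul_cancel_left _ _ (ct_det U0), nonsing_inv_mul_cancel_left _ _ K0.isUnit,
    Matrix.smul_mul, Matrix.mul_smul, Matrix.one_mul]
  abel

/-- **ENG**: `U` carries `D_h + a + a*` to the projective connection `d + B dz` on `G` -/
theorem eng {G : Cy A (Mn n)} {K B U : Fm A (Mn n)} (ha : Hig A A.d g a)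
    (h0 : ∀ i, ∀ z ∈ ball (0 : ℂ) A.R, trace (a i z) = 0) (Hh : A.MtM 1 g h) (HK : A.MtM 1 G K)
    (hU : A.Sm 1 U) (U0 : ∀ i, ∀ z ∈ ball (0 : ℂ) A.R, (U i z).det ≠ 0)
    (ht : ∀ i j, ∀ z ∈ A.O i j, U i z * g i j z = G i j z * U j (A.tr i j z))
    (e1 : ∀ i, ∀ z ∈ ball (0 : ℂ) A.R, db (U i) z = U i z * ad (h i z) (h i z) (a i z))
    (e2 : ∀ i, ∀ z ∈ ball (0 : ℂ) A.R, ∃ τ : ℂ,
      dz (U i) z + B i z * U i z + τ • U i z = U i z * (cn (h i) z + a i z)) :
    A.int (fun i z => nq (h i z) (h i z) (a i z)) ≤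
      6 * A.int fun i z => nq (K i z) (K i z) (tf (B i z - cn (K i) z)) := by
  have Hk : A.MtM 1 g fun i z => (U i z)ᴴ * K i z * U i z :=
    ⟨fun i z hz => (cd_mul (cd_mul (cd_ct (hU.at hz i)) (HK.sm.at hz i))
      (hU.at hz i)).contDiffWithinAt,
      fun i z hz => (HK.pos i z hz).conjTranspose_mul_mul_same (inj_of_det (U0 i z hz)),
      fun i j z hz => by
        rw [HK.tr i j z hz, ← Matrix.mul_assoc, ← Matrix.mul_assoc, ← conjTranspose_mul,
          Matrix.mul_assoc, ← ht i j z hz, conjTranspose_mul]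
        simp only [Matrix.mul_assoc]⟩
  refine (eng1 ha h0 Hh Hk).trans_eq (congrArg _ (At.int_congr' fun i z hz => ?_))
  obtain ⟨τ, e⟩ := e2 i z hz
  rw [ps_gauge ((HK.sm.at hz i).differentiableAt one_ne_zero) (pd_ne (HK.pos i z hz))
    ((hU.at hz i).differentiableAt one_ne_zero) (U0 i z hz) (e1 i z hz) e, tf_conj (U0 i z hz),
    tf_add_smul, nq_frame (U0 i z hz) (U0 i z hz)]

end Vale.Agent.P275HK
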