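import Vale.Agent.P275HK.Hom
import Vale.Agent.P275HK.Alg2

/-!
P275 (helper28): the pointwise inequality behind the energy estimate.
-/

set_option linter.all false

open scoped Matrix.Norms.Operator Topology ComplexOrder ComplexConjugate
open Filter Set Matrix Complex
open Vale.Agent.P281Z.Hm
open Vale.Agent.P275NA

noncomputable section

namespace Vale.Agent.P275HK

theorem sc_one {x y t : ℝ} (hx : 0 < x) (hy : 0 < y) (ht : 0 < t) (α β : ℂ) :
    (y / (y + t) - y / (y + 2 * t)) / 2 * ‖α‖ ^ 2 -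
      (x / (x + t) - x / (x + 2 * t)) * (x / y * ‖β‖ ^ 2) ≤
    t * ((x + t)⁻¹ * (y + t)⁻¹ * ((x + y) * ‖α‖ ^ 2 - x * (conj α * β).re)) := by
  have h1 : (conj α * β).re ≤ ‖α‖ * ‖β‖ := (re_le_norm _).trans (by simp)
  have h2 : x * (‖α‖ * ‖β‖) ≤ (x + y) / 2 * ‖α‖ ^ 2 + x ^ 2 / (2 * (x + y)) * ‖β‖ ^ 2 := by
    rw [← sub_nonneg, show (x + y) / 2 * ‖α‖ ^ 2 + x ^ 2 / (2 * (x + y)) * ‖β‖ ^ 2 -
      x * (‖α‖ * ‖β‖) = ((x + y) * ‖α‖ - x * ‖β‖) ^ 2 / (2 * (x + y)) by field_simp; ring]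
    positivity
  have h3 : y / (y + t) - y / (y + 2 * t) ≤ t * ((x + t)⁻¹ * (y + t)⁻¹ * (x + y)) := by
    rw [← sub_nonneg, show t * ((x + t)⁻¹ * (y + t)⁻¹ * (x + y)) - (y / (y + t) - y / (y + 2 * t)) =
      t * (y * y + y * t + 2 * x * t) / ((x + t) * (y + t) * (y + 2 * t)) by field_simp; ring]
    positivity
  have h4 : t * ((x + t)⁻¹ * (y + t)⁻¹ * (x ^ 2 / (2 * (x + y)))) ≤
      (x / (x + t) - x / (x + 2 * t)) * (x / y) := by
    rw [← sub_nonneg, show (x / (x + t) - x / (x + 2 * t)) * (x / y) -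
      t * ((x + t)⁻¹ * (y + t)⁻¹ * (x ^ 2 / (2 * (x + y)))) =
      t * x ^ 2 * (x * y + 2 * y * y + 2 * x * t) /
        (2 * (x + t) * (y + t) * (x + y) * (x + 2 * t) * y) by field_simp; ring]
    positivity
  have p : 0 ≤ t * ((x + t)⁻¹ * (y + t)⁻¹) := by positivity
  nlinarith [mul_le_mul_of_nonneg_left ((mul_le_mul_of_nonneg_left h1 hx.le).trans h2) p,
    mul_le_mul_of_nonneg_right h3 (sq_nonneg ‖α‖), mul_le_mul_of_nonneg_right h4 (sq_nonneg ‖β‖)]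

theorem sc_sum {x y t : ℝ} (hx : 0 < x) (hy : 0 < y) (ht : 0 < t) (N : ℕ) (h1 : 2 * t ≤ y)
    (h2 : 2 * y ≤ 2 ^ N * t) (α β : ℂ) : ‖α‖ ^ 2 / 6 - x / y * ‖β‖ ^ 2 ≤
      ∑ m ∈ Finset.range N, 2 ^ m * t * ((x + 2 ^ m * t)⁻¹ * (y + 2 ^ m * t)⁻¹ *
        ((x + y) * ‖α‖ ^ 2 - x * (conj α * β).re)) := by
  refine le_trans ?_ (Finset.sum_le_sum fun m _ => sc_one hx hy (by positivity) α β)
  simp only [← mul_assoc, ← pow_succ']
  rw [Finset.sum_sub_distrib, ← Finset.sum_mul, ← Finset.sum_mul, ← Finset.sum_mul,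
    ← Finset.sum_div, Finset.sum_range_sub' (fun m => y / (y + 2 ^ m * t)),
    Finset.sum_range_sub' (fun m => x / (x + 2 ^ m * t)), pow_zero, one_mul]
  have a1 : 2 / 3 ≤ y / (y + t) := by rw [div_le_div_iff₀ (by norm_num) (by positivity)]; linarith
  have a2 : y / (y + 2 ^ N * t) ≤ 1 / 3 := by
    rw [div_le_div_iff₀ (by positivity) (by norm_num)]; linarith
  have a3 : x / (x + t) ≤ 1 := by rw [div_le_one (by positivity)]; linarith
  have a4 : 0 ≤ x / (x + 2 ^ N * t) := by positivity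
  have p : 0 ≤ x / y * ‖β‖ ^ 2 := by positivity
  nlinarith [sq_nonneg ‖α‖]

variable {n : Type} [Fintype n] [DecidableEq n]

/-- the test endomorphism -/
def sT (k h : Mx n) (t : ℝ) : Mx n := (k + (t : ℂ) • h)⁻¹ * h

/-- the tested density -/
def qT (k h a ψ : Mx n) (t : ℝ) : ℝ :=
  (trace (ad h h a * ((k + (t : ℂ) • h)⁻¹ * k * (a + ad k k (ad h h a) - ψ) * sT k h t))).re

theorem inv_frame {P : Mx n} (k h : Mx n) (t : ℝ) :
    (Pᴴ * k * P + (t : ℂ) • (Pᴴ * h * P))⁻¹ = P⁻¹ * (k + (t : ℂ) • h)⁻¹ * (Pᴴ)⁻¹ := by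
  rw [← Matrix.smul_mul, ← Matrix.mul_smul, ← Matrix.add_mul, ← Matrix.mul_add, Matrix.mul_inv_rev,
    Matrix.mul_inv_rev, Matrix.mul_assoc]

theorem sT_frame {P : Mx n} (hP : P.det ≠ 0) (k h : Mx n) (t : ℝ) :
    sT (Pᴴ * k * P) (Pᴴ * h * P) t = P⁻¹ * sT k h t * P := by
  rw [sT, sT, inv_frame]
  simp only [Matrix.mul_assoc, nonsing_inv_mul_cancel_left _ _ (ct_det hP)]

theorem tr_conj {P : Mx n} (hP : P.det ≠ 0) (X : Mx n) : trace (P⁻¹ * X * P) = trace X := by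
  rw [trace_mul_comm, ← Matrix.mul_assoc, mul_nonsing_inv _ hP.isUnit, Matrix.one_mul]

theorem qT_frame {P : Mx n} (hP : P.det ≠ 0) (k h a ψ : Mx n) (t : ℝ) :
    qT (Pᴴ * k * P) (Pᴴ * h * P) (P⁻¹ * a * P) (P⁻¹ * ψ * P) t = qT k h a ψ t := by
  rw [qT, qT, ad_frame hP hP, ad_frame hP hP, sT_frame hP, inv_frame, ← Matrix.add_mul,
    ← Matrix.mul_add, ← Matrix.sub_mul, ← Matrix.mul_sub, ← tr_conj hP (ad h h a * _)]
  simp only [Matrix.mul_assoc, nonsing_inv_mul_cancel_left _ _ (ct_det hP),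
    mul_nonsing_inv_cancel_left _ _ hP.isUnit]

theorem inv_diag {d : n → ℝ} (hd : ∀ i, 0 < d i) :
    (diagonal fun i => (d i : ℂ))⁻¹ = diagonal fun i => (((d i)⁻¹ : ℝ) : ℂ) :=
  inv_eq_left_inv (by
    rw [diagonal_mul_diagonal, ← diagonal_one]
    congr 1
    funext i
    rw [← ofReal_mul, inv_mul_cancel₀ (hd i).ne', ofReal_one])

theorem ct_diag (d : n → ℝ) : (diagonal fun i => (d i : ℂ))ᴴ = diagonal fun i => (d i : ℂ) := by
  rw [diagonal_conjTranspose]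
  congr 1
  funext i
  exact conj_ofReal _

theorem qT_diag {d : n → ℝ} (hd : ∀ i, 0 < d i) (a ψ : Mx n) {t : ℝ} (ht : 0 < t) :
    qT (diagonal fun i => (d i : ℂ)) 1 a ψ t = ∑ i, ∑ j, (d i + t)⁻¹ * (d j + t)⁻¹ *
      ((d i + d j) * ‖a i j‖ ^ 2 - d i * (conj (a i j) * ψ i j).re) := by
  have e : (diagonal fun i => (d i : ℂ)) + (t : ℂ) • (1 : Mx n) =
      diagonal fun i => ((d i + t : ℝ) : ℂ) := by
    rw [smul_one_eq_diagonal, diagonal_add]
    simp only [ofReal_add]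
  rw [qT, sT, e, inv_diag fun i => add_pos (hd i) ht, ad, ad, inv_one, Matrix.one_mul,
    Matrix.mul_one, Matrix.mul_one, conjTranspose_conjTranspose, inv_diag hd, tr_ct_mul, re_sum]
  refine Finset.sum_congr rfl fun i _ => ?_
  rw [re_sum]
  refine Finset.sum_congr rfl fun j _ => ?_
  rw [mul_diagonal, diagonal_mul_diagonal, diagonal_mul, Matrix.sub_apply, Matrix.add_apply,
    mul_diagonal, diagonal_mul]
  have h0 : (d i : ℂ) ≠ 0 := ofReal_ne_zero.2 (hd i).ne'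
  rw [show conj (a i j) * ((((d i + t)⁻¹ : ℝ) : ℂ) * d i *
      (a i j + (((d i)⁻¹ : ℝ) : ℂ) * a i j * d j - ψ i j) * (((d j + t)⁻¹ : ℝ) : ℂ)) =
      (((d i + t)⁻¹ * (d j + t)⁻¹ : ℝ) : ℂ) * ((((d i + d j) * ‖a i j‖ ^ 2 : ℝ) : ℂ) -
        d i * (conj (a i j) * ψ i j)) by
    rw [ofReal_mul, ofReal_mul, ofReal_pow, ← conj_mul', ofReal_inv (d i), ofReal_add (d i) (d j)]
    field_simp, re_ofReal_mul, sub_re, ofReal_re, re_ofReal_mul]

theorem nq_diag {d : n → ℝ} (hd : ∀ i, 0 < d i) (ψ : Mx n) :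
    nq (diagonal fun i => (d i : ℂ)) (diagonal fun i => (d i : ℂ)) ψ =
      ∑ i, ∑ j, d i / d j * ‖ψ i j‖ ^ 2 := by
  rw [nq, ad, inv_diag hd, Matrix.mul_assoc, Matrix.mul_assoc, trace_mul_comm, Matrix.mul_assoc,
    tr_ct_mul, re_sum]
  refine Finset.sum_congr rfl fun i _ => ?_
  rw [re_sum]
  refine Finset.sum_congr rfl fun j _ => ?_
  rw [mul_diagonal, diagonal_mul, show conj (ψ i j) * (d i * ψ i j * (((d j)⁻¹ : ℝ) : ℂ)) =
    ((d i / d j * ‖ψ i j‖ ^ 2 : ℝ) : ℂ) by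
      rw [ofReal_mul, ofReal_pow, ← conj_mul', div_eq_mul_inv, ofReal_mul]; ring, ofReal_re]

theorem nq_std (a : Mx n) : nq (1 : Mx n) 1 a = fs a := by
  rw [nq, ad, inv_one, Matrix.one_mul, Matrix.mul_one, tr_fs, ofReal_re]

/-- the pointwise inequality -/
theorem qT_sum {k h : Mx n} (hk : k.PosDef) (hh : h.PosDef) (a ψ : Mx n) {B : ℝ} (hB : 0 < B)
    (h1 : nq k h 1 ≤ B) (h2 : nq h k 1 ≤ B) (N : ℕ) (hN : 4 * B ^ 2 ≤ 2 ^ N) :
    nq h h a / 6 - nq k k ψ ≤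
      ∑ m ∈ Finset.range N, 2 ^ m * (2 * B)⁻¹ * qT k h a ψ (2 ^ m * (2 * B)⁻¹) := by
  obtain ⟨P, d, hP, e1, e2, hd, -⟩ := simul hh hk.isHermitian
  have hd := hd hk
  have e3 : P⁻¹ * 1 * P = 1 := by rw [Matrix.mul_one, nonsing_inv_mul _ hP.isUnit]
  rw [← nq_frame hP hP, e1, e2, e3, nq, ad, inv_diag hd, conjTranspose_one, Matrix.mul_one,
    Matrix.mul_one, Matrix.mul_one, trace_diagonal, re_sum] at h1
  rw [← nq_frame hP hP, e1, e2, e3, nq, ad, inv_one, conjTranspose_one, Matrix.mul_one,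
    Matrix.mul_one, Matrix.one_mul, trace_diagonal, re_sum] at h2
  simp only [ofReal_re] at h1 h2
  have b1 : ∀ j, 2 * (2 * B)⁻¹ ≤ d j := fun j => by
    have := (Finset.single_le_sum (f := fun i => (d i)⁻¹) (fun i _ => (inv_pos.2 (hd i)).le)
      (Finset.mem_univ j)).trans h1
    rw [show 2 * (2 * B)⁻¹ = B⁻¹ by field_simp]
    exact inv_le_of_inv_le₀ (hd j) this
  have b2 : ∀ j, 2 * d j ≤ 2 ^ N * (2 * B)⁻¹ := fun j => by
    have := (Finset.single_le_sum (f := d) (fun i _ => (hd i).le) (Finset.mem_univ j)).trans h2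
    rw [← div_eq_mul_inv, le_div_iff₀ (by positivity)]
    nlinarith
  have ht : 0 < (2 * B)⁻¹ := by positivity
  simp only [← qT_frame hP k h a ψ, e1, e2]
  rw [← nq_frame hP hP h h, ← nq_frame hP hP k k, e1, e2, nq_std, nq_diag hd, fs, Finset.sum_div,
    ← Finset.sum_sub_distrib]
  have e4 := fun m : ℕ => qT_diag hd (P⁻¹ * a * P) (P⁻¹ * ψ * P)
    (mul_pos (pow_pos two_pos m) ht)
  simp only [e4]
  rw [Finset.sum_congr (s₁ := Finset.range N) rfl fun m _ => Finset.mul_sum _ _ _, Finset.sum_comm]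
  refine Finset.sum_le_sum fun i _ => ?_
  rw [Finset.sum_div, ← Finset.sum_sub_distrib]
  simp only [Finset.mul_sum]
  rw [Finset.sum_comm]
  exact Finset.sum_le_sum fun j _ => sc_sum (hd i) (hd j) ht N (b1 j) (b2 j) _ _

/-- twice the `(1,0)` component of the `k`-selfadjoint part of `D_h + a + a*` -/
def ps (k h a : ℂ → Mx n) (z : ℂ) : Mx n :=
  cn h z + a z + ad (k z) (k z) (ad (h z) (h z) (a z)) - cn k z

theorem pd_add {k h : Mx n} (hk : k.PosDef) (hh : h.PosDef) {t : ℝ} (ht : 0 < t) :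
    (k + (t : ℂ) • h).PosDef := hk.add (hh.smul (by exact_mod_cast ht))

theorem cd_sT {N : WithTop ℕ∞} {k h : ℂ → Mx n} {z : ℂ} {t : ℝ} (hk : ContDiffAt ℝ N k z)
    (hh : ContDiffAt ℝ N h z) (pk : (k z).PosDef) (ph : (h z).PosDef) (ht : 0 < t) :
    ContDiffAt ℝ N (fun x => sT (k x) (h x) t) z :=
  cd_mul (cd_inv (f := fun x => k x + (t : ℂ) • h x) (hk.add (hh.const_smul _))
    (pd_ne (pd_add pk ph ht))) hh

theorem dH_sT {k h : ℂ → Mx n} {z : ℂ} {t : ℝ} (hk : DifferentiableAt ℝ k z)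
    (hh : DifferentiableAt ℝ h z) (pk : (k z).PosDef) (ph : (h z).PosDef) (ht : 0 < t) :
    dH h h (fun x => sT (k x) (h x) t) z =
      -((k z + (t : ℂ) • h z)⁻¹ * k z * (cn k z - cn h z) * sT (k z) (h z) t) := by
  have d : DifferentiableAt ℝ (fun x => k x + (t : ℂ) • h x) z := hk.add (df_msmul _ hh)
  have p := pd_add pk ph ht
  have e1 : dz k z = k z * cn k z := by rw [cn, mul_nonsing_inv_cancel_left _ _ (pd_det pk)]
  have e2 : dz h z = h z * cn h z := by rw [cn, mul_nonsing_inv_cancel_left _ _ (pd_det ph)]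
  rw [dH]
  simp only [sT]
  rw [dz, wd_mul (df_inv d (pd_ne p)) hh, wd_minv d (pd_ne p), wd_add hk (df_msmul _ hh),
    wd_msmul _ hh, ← dz, ← dz, e1, e2]
  have e3 : cn h z = (k z + (t : ℂ) • h z)⁻¹ * (k z * cn h z + (t : ℂ) • (h z * cn h z)) := by
    rw [← Matrix.smul_mul, ← Matrix.add_mul, nonsing_inv_mul_cancel_left _ _ (pd_det p)]
  generalize (k z + (t : ℂ) • h z)⁻¹ = R at *
  generalize cn k z = ck at *
  generalize cn h z = ch at *
  have e4 : ch * (R * h z) = R * (k z * ch + (t : ℂ) • (h z * ch)) * (R * h z) := by rw [← e3]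
  rw [e4]
  simp only [Matrix.mul_add, Matrix.add_mul, Matrix.mul_sub, Matrix.sub_mul, Matrix.neg_mul,
    Matrix.mul_assoc]
  abel

theorem dz_test {k h a : ℂ → Mx n} {z : ℂ} {t : ℝ} (hk : ContDiffAt ℝ 1 k z)
    (hh : ContDiffAt ℝ 1 h z) (pk : (k z).PosDef) (ph : (h z).PosDef) (ha : AnalyticAt ℂ a z)
    (ht : 0 < t) : (dz (fun x => trace (ad (h x) (h x) (a x) * sT (k x) (h x) t)) z).re =
      -qT (k z) (h z) (a z) (ps k h a z) t := by
  have d1 := hk.differentiableAt one_ne_zero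
  have d2 := hh.differentiableAt one_ne_zero
  rw [dz_pair d2 (pd_ne ph) d2 (pd_ne ph) (hol_df ha)
    ((cd_sT hk hh pk ph ht).differentiableAt one_ne_zero), db_hol ha, ad_zero, Matrix.zero_mul,
    trace_zero, zero_add, dH_sT d1 d2 pk ph ht, Matrix.mul_neg, trace_neg, neg_re, qT, ps]
  congr 6
  abel

end Vale.Agent.P275HK
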