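import Vale.Agent.P275HK.Eng
import Vale.Agent.P275NU.Defs

/-!
P275 (helper28): maps of harmonic bundles are parallel; injectivity of the Hodge map.
-/

set_option linter.all false

open scoped Matrix.Norms.Operator Topology ComplexOrder ComplexConjugate ContDiff
open Filter Set Matrix Complex Metric MeasureTheory
open Vale.Agent.P281Z.Hm
open Vale.Agent.P275NA
open Vale.Agent.P275GC (At)
open Vale.Agent.P275MO (tf)
open Vale.Agent.P275NU (Con PF Rel INJ PAR)

noncomputable section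

namespace Vale.Agent.P275HK

variable {C : Type} [TopologicalSpace C] {A : At C} {n : ℕ} {l : Cy A ℂ}
  {g g' : Cy A (Mn n)} {a a' k h u : Fm A (Mn n)} {i j : Fin A.N} {z : ℂ}

theorem con_hig (hn : 0 < n) (H : Con A l 0 g a) : Hig A A.d g a :=
  ⟨H.cc, H.hol, fun i j z hz => by
    obtain ⟨c, e⟩ := H.law i j z hz
    have p := cc_ne H.cc hz
    have t := congrArg (fun X => trace ((g i j z)⁻¹ * X)) e
    have m : (n : ℂ) ≠ 0 := by exact_mod_cast hn.ne'
    simp only [zero_smul, add_zero, Matrix.mul_add, Matrix.mul_smul, trace_add, trace_smul,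
      nonsing_inv_mul_cancel_left _ _ p.isUnit, nonsing_inv_mul _ p.isUnit,
      H.tr j _ (At.tr_ball hz), smul_zero, zero_add, trace_one, Fintype.card_fin] at t
    rw [← Matrix.mul_assoc, tr_conj p, H.tr i z hz.1, smul_eq_mul, eq_comm, mul_eq_zero] at t
    rwa [t.resolve_right m, zero_smul, zero_smul, add_zero, add_zero] at e⟩

theorem tf_split (X : Mx (Fin n)) : X = tf X + ((n : ℂ)⁻¹ * trace X) • 1 :=
  (sub_add_cancel _ _).symm

theorem db_sc {f : ℂ → Mx (Fin n)} (hf : DifferentiableAt ℝ f z) :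
    db (fun x => ((n : ℂ)⁻¹ * trace (f x)) • (1 : Mx (Fin n))) z =
      ((n : ℂ)⁻¹ * trace (db f z)) • 1 := by
  rw [db, wb_smul ((df_trace hf).const_mul _) (differentiableAt_const _), wb_const, smul_zero,
    add_zero, wb_cmul (differentiableAt_const _) (df_trace hf), wb_const, zero_mul, zero_add,
    wb_trace hf]

theorem df_sc {f : ℂ → Mx (Fin n)} (hf : DifferentiableAt ℝ f z) :
    DifferentiableAt ℝ (fun x => ((n : ℂ)⁻¹ * trace (f x)) • (1 : Mx (Fin n))) z :=
  ((df_trace hf).const_mul _).smul_const _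

/-- a conformal change making the determinants of two metrics equal -/
theorem norm_met (hg : A.Cc g) (hg' : A.Cc g')
    (e : ∀ i j, ∀ z ∈ A.O i j, (g i j z).det = (g' i j z).det) (Hk : A.MtM ∞ g k)
    (Hh : A.MtM ∞ g' h) : ∃ h' : Fm A (Mn n), A.MtM ∞ g' h' ∧ ∀ i, ∀ z ∈ ball (0 : ℂ) A.R,
      (∀ X, ad (h' i z) (h' i z) X = ad (h i z) (h i z) X) ∧
      cn (h' i) z = tf (cn (h i) z) + ((n : ℂ)⁻¹ * trace (cn (k i) z)) • 1 ∧
      cv (h' i) z = tf (cv (h i) z) + ((n : ℂ)⁻¹ * trace (cv (k i) z)) • 1 := by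
  set v : Fm A ℝ := fun i z => (n : ℝ)⁻¹ * (Real.log (k i z).det.re - Real.log (h i z).det.re)
  have d0 := fun {g : Cy A (Mn n)} {h : Fm A (Mn n)} (H : A.MtM ∞ g h) i z hz =>
    (cd_re (cd_det (H.sm.at (z := z) hz i))).log (det_re (H.pos i z hz)).2.ne'
  have cv' : ∀ i, ∀ z ∈ ball (0 : ℂ) A.R, ContDiffAt ℝ ∞ (v i) z := fun i z hz =>
    contDiffAt_const.mul ((d0 Hk i z hz).sub (d0 Hh i z hz))
  have H' : A.MtM ∞ g' fun i z => (Real.exp (v i z) : ℂ) • h i z :=
    ⟨fun i z hz => ((cd_ofReal (cv' i z hz).exp).smul (Hh.sm.at hz i)).contDiffWithinAt,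
      fun i z hz => (Hh.pos i z hz).smul (by exact_mod_cast Real.exp_pos _), fun i j z hz => by
        simp only [v]
        rw [logdet_tr hg Hk hz, logdet_tr hg' Hh hz, e i j z hz, add_sub_add_left_eq_sub,
          Hh.tr i j z hz, Matrix.mul_smul, Matrix.smul_mul]⟩
  have e1 : ∀ i, ∀ z ∈ ball (0 : ℂ) A.R, cn (fun z => (Real.exp (v i z) : ℂ) • h i z) z =
      tf (cn (h i) z) + ((n : ℂ)⁻¹ * trace (cn (k i) z)) • 1 := fun i z hz => by
    have d1 := fun {g : Cy A (Mn n)} {h : Fm A (Mn n)} (H : A.MtM ∞ g h) =>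
      (cd_ofReal (d0 H i z hz)).differentiableAt (by simp)
    rw [cn_exp ((cv' i z hz).differentiableAt (by simp)) (Hh.sm.df (by simp) hz i)
      (pd_ne (Hh.pos i z hz))]
    simp only [v, ofReal_mul, ofReal_sub, ofReal_inv, ofReal_natCast]
    simp only [← smul_eq_mul]
    rw [dz, wd_const_smul _ ((d1 Hk).fun_sub (d1 Hh)), wd_sub (d1 Hk) (d1 Hh), ← dz, ← dz,
      dz_logdet (met_of Hk two_le hz i), dz_logdet (met_of Hh two_le hz i), tf, smul_sub, sub_smul,
      smul_eq_mul, smul_eq_mul]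
    abel
  refine ⟨_, H', fun i z hz => ⟨ad_rsmul (ofReal_ne_zero.2 (Real.exp_pos _).ne')
    (pd_ne (Hh.pos i z hz)), e1 i z hz, ?_⟩⟩
  have d1 := df_cn (met_of Hh two_le hz i)
  have d2 := df_cn (met_of Hk two_le hz i)
  rw [cv, db, wb_congr (eventually_of_mem (isOpen_ball.mem_nhds hz) (e1 i))]
  simp only [tf]
  rw [wb_add (d1.fun_sub (df_sc d1)) (df_sc d2), wb_sub d1 (df_sc d1), ← db, ← db, ← db, db_sc d1,
    db_sc d2, cv, cv, trace_neg, trace_neg, mul_neg, mul_neg, neg_smul, neg_smul]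
  abel

theorem dH_tf {k h h' u : ℂ → Mx (Fin n)}
    (e : cn h' z = tf (cn h z) + ((n : ℂ)⁻¹ * trace (cn k z)) • 1) :
    dH k h' u z = dz u z + tf (cn h z) * u z - u z * tf (cn k z) := by
  rw [dH, e, tf, tf]
  simp only [Matrix.add_mul, Matrix.mul_sub, Matrix.smul_mul, Matrix.mul_smul, Matrix.one_mul,
    Matrix.mul_one]
  abel

theorem tf_hk (h a : ℂ → Mx (Fin n)) : tf (hk h a z) = tf (cv h z) + br (h z) (a z) := by
  rw [hk, tf, tf, trace_add, tr_br, add_zero, add_sub_right_comm]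

variable [T2Space C]

theorem par0 (hg : A.Cc g) (hg' : A.Cc g') (Hk : A.MtM ∞ g k) (Hh : A.MtM ∞ g' h)
    (es : ∀ i, ∀ z ∈ ball (0 : ℂ) A.R, ∃ s : ℂ, hk (k i) (a i) z = s • 1 ∧ hk (h i) (a' i) z = s • 1)
    (hu : Hom A g a g' a' u) (hz : z ∈ ball (0 : ℂ) A.R) (i : Fin A.N) :
    dH (k i) (h i) (u i) z = 0 ∧
      ad (h i z) (h i z) (a' i z) * u i z = u i z * ad (k i z) (k i z) (a i z) := by
  have fn := fn_nq hg hg' Hk Hh hu.tr
  have sm : A.Sm ∞ fun i z => nq (k i z) (h i z) (u i z) := fun i z hz =>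
    (cd_nq (Hk.sm.at hz i) (pd_ne (Hk.pos i z hz)) (Hh.sm.at hz i)
      (hol_cd (hu.hol.an hz i))).contDiffWithinAt
  have e : ∀ i, ∀ z ∈ ball (0 : ℂ) A.R, lp (fun x => nq (k i x) (h i x) (u i x)) z =
      nq (k i z) (h i z) (dH (k i) (h i) (u i) z) + nq (k i z) (h i z)
        (ad (h i z) (h i z) (a' i z) * u i z - u i z * ad (k i z) (k i z) (a i z)) :=
    fun i z hz => by
      have := (homk _ _ (k i) (a i) (h i) (a' i) (u i) z (met_of Hk two_le hz i)
        (met_of Hh two_le hz i) (hu.hol.an hz i) (hu.com i z hz)).2.1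
      obtain ⟨s, e1, e2⟩ := es i z hz
      rw [this, e1, e2, Matrix.mul_smul, Matrix.mul_smul, Matrix.mul_one,
        Matrix.mul_one, trace_smul, trace_smul, trace_mul_comm (u i z), dH]
      ring
  have nn := fun i z hz X => nq_nonneg (g := X) (Hk.pos i z hz) (Hh.pos i z hz)
  have e0 := (fn.dn_lp (sm.of_le two_le)).eq_zero
    (sm.lp (m := 0) (by simpa [one_add_one_eq_two] using two_le)).ct (fun i z hz => by
      rw [e i z (At.mem_of_le hz.le)]
      exact add_nonneg (nn i z (At.mem_of_le hz.le) _) (nn i z (At.mem_of_le hz.le) _))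
    (fn.int_lp (sm.of_le two_le)) i hz
  rw [e i z hz, add_eq_zero_iff_of_nonneg (nn i z hz _) (nn i z hz _)] at e0
  exact ⟨nq_zero (Hk.pos i z hz) (Hh.pos i z hz) e0.1,
    sub_eq_zero.1 (nq_zero (Hk.pos i z hz) (Hh.pos i z hz) e0.2)⟩

/-- **PAR** -/
theorem par (A : At C) : PAR A := by
  intro n l g₁ g₂ a₁ h₁ a₂ h₂ φ hn c1 c2 H1 H2 p1 p2 hφ i z hz
  obtain ⟨h', H', e⟩ := norm_met c1.cc c2.cc
    (fun i j z hz => (c1.det i j z hz).trans (c2.det i j z hz).symm) H1 H2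
  have := par0 c1.cc c2.cc H1 H' (fun i z hz => ⟨(n : ℂ)⁻¹ * trace (cv (h₁ i) z), by
    rw [tf_split (hk _ _ z), p1 i z hz, zero_add, hk, trace_add, tr_br, add_zero], by
    rw [hk, (e i z hz).2.2, br, (e i z hz).1, ← br, add_right_comm, ← tf_hk, p2 i z hz,
      zero_add]⟩) hφ hz i
  rw [dH_tf (e i z hz).2.1, (e i z hz).1, sub_eq_zero] at this
  exact this

omit [T2Space C] in
theorem db_inj {k h a b u : ℂ → Mx (Fin n)} {lam : ℂ} (h0 : lam ≠ 0) (Hk : MetAt k z)
    (Hh : MetAt h z) (ha : AnalyticAt ℂ a z) (hb : AnalyticAt ℂ b z) (hu : DifferentiableAt ℝ u z)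
    (e1 : lam • dH k h u z = -(b z * u z - u z * a z))
    (e2 : db u z = -(lam • (ad (h z) (h z) (b z) * u z - u z * ad (k z) (k z) (a z)))) :
    (-conj lam * db (fun x => trace (ad (k x) (h x) (u x) * (b x * u x - u x * a x))) z).re =
      nq (k z) (h z) (b z * u z - u z * a z) + nq (k z) (h z) (db u z) := by
  have pk := MetAt.pd Hk
  have ph := MetAt.pd Hh
  have d1 := df_mul (hol_df hb) hu
  have d2 := df_mul hu (hol_df ha)
  have e3 : db (fun x => b x * u x - u x * a x) z = b z * db u z - db u z * a z := by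
    rw [db, wb_sub d1 d2, wb_mul (hol_df hb) hu, wb_mul hu (hol_df ha), wb_hol hb.differentiableAt,
      wb_hol ha.differentiableAt, Matrix.zero_mul, Matrix.mul_zero, zero_add, add_zero]
  have e4 : ad (k z) (h z) (db u z) =
      -(conj lam • (ad (k z) (h z) (u z) * b z - a z * ad (k z) (h z) (u z))) := by
    rw [e2, ad_neg, ad_smul, ad_sub, ad_mul _ (pd_det ph), ad_mul _ (pd_det pk), ad_ad ph ph,
      ad_ad pk pk]
  rw [db_pair (MetAt.df Hk) Hk.pos (MetAt.df Hh) Hh.pos hu (d1.fun_sub d2), e3, nq, nq, e4,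
    ← add_re, mul_add, neg_mul, ← smul_eq_mul, ← trace_smul, ← Matrix.smul_mul, ← ad_smul, e1,
    ad_neg, Matrix.neg_mul, trace_neg, neg_neg, Matrix.neg_mul, trace_neg, Matrix.smul_mul,
    trace_smul, smul_eq_mul, neg_mul, Matrix.mul_sub (ad _ _ (u z)), Matrix.sub_mul _ _ (db u z),
    trace_sub (ad _ _ (u z) * _), trace_sub (_ * db u z), ← Matrix.mul_assoc (ad _ _ (u z)),
    ← Matrix.mul_assoc (ad _ _ (u z)), trace_mul_comm _ (a z), ← Matrix.mul_assoc (a z)]

theorem inj0 {lam : ℂ} (h0 : lam ≠ 0) (ha : Hig A A.d g a) (ha' : Hig A A.d g' a')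
    (Hk : A.MtM ∞ g k) (Hh : A.MtM ∞ g' h) (hu : A.Sm ∞ u)
    (ht : ∀ i j, ∀ z ∈ A.O i j, u i z * g i j z = g' i j z * u j (A.tr i j z))
    (e1 : ∀ i, ∀ z ∈ ball (0 : ℂ) A.R,
      lam • dH (k i) (h i) (u i) z = -(a' i z * u i z - u i z * a i z))
    (e2 : ∀ i, ∀ z ∈ ball (0 : ℂ) A.R, db (u i) z =
      -(lam • (ad (h i z) (h i z) (a' i z) * u i z - u i z * ad (k i z) (k i z) (a i z)))) :
    Hom A g a g' a' u := by
  set w : Fm A ℂ := fun i x => trace (ad (k i x) (h i x) (u i x) * (a' i x * u i x - u i x * a i x))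
  have sm : A.Sm ∞ w := fun i z hz => (cd_trace (cd_mul (cd_ad (Hk.sm.at hz i)
    (pd_ne (Hk.pos i z hz)) (Hh.sm.at hz i) (hu.at hz i)) ((cd_mul (hol_cd (ha'.hol.an hz i))
      (hu.at hz i)).sub (cd_mul (hu.at hz i) (hol_cd (ha.hol.an hz i)))))).contDiffWithinAt
  have s1 : A.Sm 1 w := sm.of_le (by exact_mod_cast le_top)
  have f : A.F10 w := fun i j z hz => by
    have p := cc_ne ha.cc hz
    have q := cc_ne ha'.cc hz
    simp only [w]
    rw [← trace_smul, ← Matrix.mul_smul, smul_sub, ← Matrix.smul_mul, ← Matrix.mul_smul,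
      hig_solve ha hz, hig_solve ha' hz, Hh.tr i j z hz, Hk.tr i j z hz,
      tr_solve ha'.cc hz (ht i j z hz), ad_frame p q, ← tr_conj p (ad _ _ (u i z) * _)]
    simp only [Matrix.mul_sub, Matrix.sub_mul, Matrix.mul_assoc,
      mul_nonsing_inv_cancel_left _ _ p.isUnit, mul_nonsing_inv_cancel_left _ _ q.isUnit]
  have ct : A.Ct fun i z => -conj lam * db (w i) z := fun i =>
    continuousOn_const.mul ((s1.db (m := 0) (by simp)).ct i)
  have e := fun i z hz => db_inj h0 (met_of Hk two_le hz i) (met_of Hh two_le hz i)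
    (ha.hol.an hz i) (ha'.hol.an hz i) (hu.df (by simp) hz i) (e1 i z hz) (e2 i z hz)
  have nn := fun i z hz X => nq_nonneg (g := X) (Hk.pos i z hz) (Hh.pos i z hz)
  have e0 : ∀ i, ∀ z ∈ ball (0 : ℂ) A.R, a' i z * u i z - u i z * a i z = 0 ∧ db (u i) z = 0 :=
    fun i z hz => by
      have := At.Dn.eq_zero (A := A) (u := fun i z => (-conj lam * db (w i) z).re)
        (fun i j z hz => by
          beta_reduce
          rw [show db (w i) z = _ from f.dn s1 i j z hz, real_smul, mul_left_comm, re_ofReal_mul,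
            smul_eq_mul])
        (fun i => continuous_re.comp_continuousOn (ct i)) (fun i z hz => by
          rw [e i z (At.mem_of_le hz.le)]
          exact add_nonneg (nn i z (At.mem_of_le hz.le) _) (nn i z (At.mem_of_le hz.le) _))
        (by rw [At.int_re ct.in, At.int_cmul, f.int_db s1, mul_zero, zero_re]) i hz
      rw [e i z hz, add_eq_zero_iff_of_nonneg (nn i z hz _) (nn i z hz _)] at this
      exact ⟨nq_zero (Hk.pos i z hz) (Hh.pos i z hz) this.1,
        nq_zero (Hk.pos i z hz) (Hh.pos i z hz) this.2⟩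
  exact ⟨At.hl_of_db (hu.of_le (by exact_mod_cast le_top)) fun i z hz => (e0 i z hz).2, ht,
    fun i z hz => (sub_eq_zero.1 (e0 i z hz).1).symm⟩

/-- **INJ** -/
theorem inj (A : At C) : INJ A := by
  intro n l lam g₁ g₂ g' a₁ h₁ G₁ a₂ h₂ G₂ a' hn h0 c1 c2 H1 H2 r1 r2
  obtain ⟨h', H', e⟩ := norm_met c1.cc c2.cc
    (fun i j z hz => (c1.det i j z hz).trans (c2.det i j z hz).symm) H1 H2
  refine inj0 h0 (con_hig hn c1) (con_hig hn c2) H1 H' (fun i z hz => (cd_mul (r2.sm.at hz i)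
    (cd_inv (r1.sm.at hz i) (r1.ne i z hz))).contDiffWithinAt) (fun i j z hz => ?_)
    (fun i z hz => ?_) fun i z hz => ?_
  · have p := (r1.ne i z hz.1).isUnit
    have q := (r1.ne j _ (At.tr_ball hz)).isUnit
    rw [← Matrix.mul_assoc, r2.tr i j z hz, ← mul_nonsing_inv_cancel_right _ (g₁ i j z) q,
      r1.tr i j z hz]
    simp only [Matrix.mul_assoc, nonsing_inv_mul_cancel_left _ _ p]
  all_goals
    have p := r1.ne i z hz
    have d1 := r1.sm.df (by simp) hz i
    have d2 := r2.sm.df (by simp) hz i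
  · rw [dH_tf (e i z hz).2.1, dz, wd_mul d2 (df_inv d1 p), wd_minv d1 p, smul_sub, smul_add,
      smul_add, ← Matrix.smul_mul, Matrix.mul_neg, smul_neg, ← Matrix.mul_smul, ← Matrix.smul_mul,
      ← Matrix.mul_smul, eq_sub_of_add_eq (r1.dz i z hz), eq_sub_of_add_eq (r2.dz i z hz)]
    simp only [Matrix.mul_sub, Matrix.sub_mul, Matrix.mul_add, Matrix.add_mul, Matrix.mul_assoc,
      Matrix.smul_mul, Matrix.mul_smul, nonsing_inv_mul_cancel_left _ _ p.isUnit,
      mul_nonsing_inv _ p.isUnit, Matrix.mul_one]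
    abel
  · rw [(e i z hz).1, db, wb_mul d2 (df_inv d1 p), wb_minv d1 p,
      show wb 1 (G₁ i) z = _ from eq_neg_of_add_eq_zero_left (r1.db i z hz),
      show wb 1 (G₂ i) z = _ from eq_neg_of_add_eq_zero_left (r2.db i z hz)]
    simp only [Matrix.mul_neg, Matrix.neg_mul, Matrix.mul_assoc, Matrix.smul_mul, Matrix.mul_smul,
      mul_nonsing_inv _ p.isUnit, Matrix.mul_one, smul_sub, neg_neg]
    abel

end Vale.Agent.P275HK
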